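import Mathlib
import Crest.Agent.X262.Coh.Defs

-- ▼ part X262/Int23/Abs
section

/-!
# Row 262, INT (helper23), part 1: Hodge lattices of surfaces and correspondences, abstract part

* `HL H`      : a unimodular lattice in `H` with a decomposition `H = O₁ + M + O₂` into types;
* `HL.T`      : the transcendental part, `HL.T_le` : it is the smallest rational subspace
  which contains `O₁` and `O₂`;
* `Corr h h' ψ` : integral, type preserving, isometric on `O₁ × O₂`; `Corr.comp`, `Corr.adj`;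
* `Corr.map_T`, `Corr.iso`, `Corr.inj`, `Corr.onto`, `Corr.finrank_T`, `Corr.finrank_O₁`;
* `HL.Pic1 h d` : the integral classes of type `(1,1)` are the multiples of a class of square `d`;
* `Corr.dvd`  : the degree of the target divides the degree of the source.
-/

set_option autoImplicit false

namespace Crest.Agent.X262.Int23

open Module

/-- a unimodular lattice with a Hodge decomposition of weight two -/
structure HL (H : Type*) [AddCommGroup H] [Module ℂ H] where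
  /-- the intersection form -/
  B : LinearMap.BilinForm ℂ H
  symm : ∀ x y, B x y = B y x
  nd : ∀ x, (∀ y, B x y = 0) → x = 0
  /-- the integral classes -/
  Λ : AddSubgroup H
  span : Submodule.span ℂ (Λ : Set H) = ⊤
  int : ∀ x ∈ Λ, ∀ y ∈ Λ, ∃ k : ℤ, B x y = k
  dual : ∀ x, (∀ y ∈ Λ, ∃ k : ℤ, B x y = k) → x ∈ Λ
  /-- type `(2,0)` -/
  O₁ : Submodule ℂ H
  /-- type `(1,1)` -/
  M : Submodule ℂ H
  /-- type `(0,2)` -/
  O₂ : Submodule ℂ H
  dec : ∀ x, ∃ a ∈ O₁, ∃ b ∈ M, ∃ c ∈ O₂, x = a + b + c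
  o11 : ∀ x ∈ O₁, ∀ y ∈ O₁, B x y = 0
  o22 : ∀ x ∈ O₂, ∀ y ∈ O₂, B x y = 0
  o1M : ∀ x ∈ O₁, ∀ y ∈ M, B x y = 0
  o2M : ∀ x ∈ O₂, ∀ y ∈ M, B x y = 0

variable {H H' H'' : Type*} [AddCommGroup H] [Module ℂ H] [AddCommGroup H'] [Module ℂ H']
  [AddCommGroup H''] [Module ℂ H'']

/-- the common kernel of functionals which are integral on a spanning subgroup is spanned by
elements of the subgroup -/
theorem mem_span_of_int {Λ : AddSubgroup H} (hs : Submodule.span ℂ (Λ : Set H) = ⊤)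
    {ι : Type*} {φ : ι → H →ₗ[ℂ] ℂ} (hφ : ∀ i, ∀ y ∈ Λ, ∃ k : ℤ, φ i y = k) {x : H}
    (hx : ∀ i, φ i x = 0) : x ∈ Submodule.span ℂ {y | y ∈ Λ ∧ ∀ i, φ i y = 0} := by
  classical
  obtain ⟨r, c, v, rfl⟩ := Submodule.mem_span_set'.1 (hs ▸ Submodule.mem_top (x := x))
  let e := Basis.ofVectorSpace ℚ ℂ
  let s := Finset.univ.biUnion fun j => (e.repr (c j)).support
  have h1 : ∀ j, c j = ∑ k ∈ s, (e.repr (c j) k : ℂ) * e k := fun j => by
    conv_lhs => rw [← e.linearCombination_repr (c j)]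
    rw [Finsupp.linearCombination_apply, Finsupp.sum_of_support_subset _
      (Finset.subset_biUnion_of_mem (fun j => (e.repr (c j)).support) (Finset.mem_univ j))
      (fun i a => a • e i) (fun _ _ => zero_smul _ _)]
    exact Finset.sum_congr rfl fun k _ => Rat.smul_def _ _
  have h2 : ∑ j, c j • (v j : H) = ∑ k ∈ s, e k • ∑ j, (e.repr (c j) k : ℂ) • (v j : H) := by
    simp only [Finset.smul_sum, smul_smul]
    rw [Finset.sum_comm]
    refine Finset.sum_congr rfl fun j _ => ?_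
    rw [← Finset.sum_smul]
    congr 1
    exact (h1 j).trans (Finset.sum_congr rfl fun k _ => mul_comm _ _)
  rw [h2]
  refine Submodule.sum_mem _ fun k _ => Submodule.smul_mem _ _ ?_
  have h3 : ∀ i, φ i (∑ j, (e.repr (c j) k : ℂ) • (v j : H)) = 0 := by
    intro i
    choose m hm using fun j => hφ i (v j) (v j).2
    have h4 := congrArg (fun z => e.repr z k) (hx i)
    simp only [map_sum, map_smul, hm, smul_eq_mul, map_zero, Finsupp.coe_finsetSum,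
      Finset.sum_apply, Finsupp.zero_apply] at h4 ⊢
    have h5 : ∀ j, e.repr (c j * m j) k = e.repr (c j) k * m j := fun j => by
      rw [mul_comm, ← zsmul_eq_mul, map_zsmul, Finsupp.smul_apply, zsmul_eq_mul, mul_comm]
    simp only [h5] at h4
    exact_mod_cast h4
  obtain ⟨N, hN, hq⟩ : ∃ N : ℕ, N ≠ 0 ∧ ∀ j, ∃ m : ℤ, (N : ℚ) * e.repr (c j) k = m := by
    refine ⟨∏ j, (e.repr (c j) k).den, Finset.prod_ne_zero_iff.2 fun j _ => Rat.den_ne_zero _,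
      fun j => ?_⟩
    refine ⟨(∏ l ∈ Finset.univ.erase j, ((e.repr (c l) k).den : ℤ)) * (e.repr (c j) k).num, ?_⟩
    rw [← Finset.mul_prod_erase _ _ (Finset.mem_univ j)]
    push_cast
    rw [mul_comm ((e.repr (c j) k).den : ℚ), mul_assoc, Rat.den_mul_eq_num]
  choose m hm using hq
  have h6 : (N : ℂ) • ∑ j, (e.repr (c j) k : ℂ) • (v j : H) = ∑ j, m j • (v j : H) := by
    rw [Finset.smul_sum]
    refine Finset.sum_congr rfl fun j _ => ?_
    rw [smul_smul, ← Int.cast_smul_eq_zsmul ℂ]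
    congr 1
    exact_mod_cast hm j
  refine (Submodule.smul_mem_iff _ (Nat.cast_ne_zero.2 hN : (N : ℂ) ≠ 0)).1
    (Submodule.subset_span ⟨?_, fun i => by rw [map_smul, h3, smul_zero]⟩)
  rw [h6]
  exact sum_mem fun j _ => zsmul_mem (v j).2 _

namespace HL

variable (h : HL H)

/-- the transcendental part -/
def T : Submodule ℂ H where
  carrier := {x | ∀ n ∈ h.Λ, n ∈ h.M → h.B x n = 0}
  add_mem' ha hb n h1 h2 := by rw [map_add, LinearMap.add_apply, ha n h1 h2, hb n h1 h2, add_zero]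
  zero_mem' n _ _ := by simp
  smul_mem' c x hx n h1 h2 := by rw [map_smul, LinearMap.smul_apply, hx n h1 h2, smul_zero]

/-- the integral classes of type `(1,1)` are the multiples of a class of square `d` -/
def Pic1 (d : ℕ) : Prop :=
  d ≠ 0 ∧ ∃ L ∈ h.Λ, L ∈ h.M ∧ h.B L L = d ∧ ∀ n ∈ h.Λ, n ∈ h.M → ∃ c : ℤ, n = c • L

variable {h}


theorem O₁_le_T : h.O₁ ≤ h.T := fun x hx n _ hn => h.o1M x hx n hn

theorem O₂_le_T : h.O₂ ≤ h.T := fun x hx n _ hn => h.o2M x hx n hn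

theorem eq_of_B {x y : H} (hx : ∀ z, h.B x z = h.B y z) : x = y :=
  sub_eq_zero.1 (h.nd _ fun z => by rw [map_sub, LinearMap.sub_apply, hx, sub_self])

theorem mem_M {x : H} (h1 : ∀ y ∈ h.O₁, h.B x y = 0) (h2 : ∀ y ∈ h.O₂, h.B x y = 0) :
    x ∈ h.M := by
  obtain ⟨a, ha, b, hb, c, hc, rfl⟩ := h.dec x
  have h3 : a + c = 0 := h.nd _ fun y => by
    obtain ⟨a', ha', b', hb', c', hc', rfl⟩ := h.dec y
    have h4 := h1 a' ha'
    have h5 := h2 c' hc'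
    simp only [map_add, LinearMap.add_apply] at h4 h5 ⊢
    rw [h.symm b, h.o1M a' ha' b hb] at h4
    rw [h.symm b, h.o2M c' hc' b hb] at h5
    rw [h.o1M a ha b' hb', h.o2M c hc b' hb']
    linear_combination h4 + h5
  rwa [add_right_comm, h3, zero_add]

theorem mem_O₁ {x : H} (h1 : ∀ y ∈ h.O₁, h.B x y = 0) (h2 : ∀ y ∈ h.M, h.B x y = 0) :
    x ∈ h.O₁ := by
  obtain ⟨a, ha, b, hb, c, hc, rfl⟩ := h.dec x
  have h3 : b + c = 0 := h.nd _ fun y => by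
    obtain ⟨a', ha', b', hb', c', hc', rfl⟩ := h.dec y
    have h4 := h1 a' ha'
    have h5 := h2 b' hb'
    simp only [map_add, LinearMap.add_apply] at h4 h5 ⊢
    rw [h.o11 a ha a' ha'] at h4
    rw [h.o1M a ha b' hb'] at h5
    rw [h.symm b c', h.o2M c' hc' b hb, h.o22 c hc c' hc']
    linear_combination h4 + h5
  rwa [add_assoc, h3, add_zero]

theorem mem_O₂ {x : H} (h1 : ∀ y ∈ h.O₂, h.B x y = 0) (h2 : ∀ y ∈ h.M, h.B x y = 0) :
    x ∈ h.O₂ := by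
  obtain ⟨a, ha, b, hb, c, hc, rfl⟩ := h.dec x
  have h3 : a + b = 0 := h.nd _ fun y => by
    obtain ⟨a', ha', b', hb', c', hc', rfl⟩ := h.dec y
    have h4 := h1 c' hc'
    have h5 := h2 b' hb'
    simp only [map_add, LinearMap.add_apply] at h4 h5 ⊢
    rw [h.o22 c hc c' hc'] at h4
    rw [h.o2M c hc b' hb'] at h5
    rw [h.symm b a', h.o1M a' ha' b hb, h.o11 a ha a' ha']
    linear_combination h4 + h5
  rwa [h3, zero_add]

theorem eq_zero_of_O₁ {x : H} (hx : x ∈ h.O₁) (h2 : ∀ y ∈ h.O₂, h.B x y = 0) : x = 0 :=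
  h.nd _ fun y => by
    obtain ⟨a, ha, b, hb, c, hc, rfl⟩ := h.dec y
    rw [map_add, map_add, h.o11 x hx a ha, h.o1M x hx b hb, h2 c hc, add_zero, add_zero]

theorem eq_zero_of_O₂ {x : H} (hx : x ∈ h.O₂) (h2 : ∀ y ∈ h.O₁, h.B x y = 0) : x = 0 :=
  h.nd _ fun y => by
    obtain ⟨a, ha, b, hb, c, hc, rfl⟩ := h.dec y
    rw [map_add, map_add, h.o22 x hx c hc, h.o2M x hx b hb, h2 a ha, add_zero, add_zero]

theorem T_le_span : h.T ≤ Submodule.span ℂ {y | y ∈ h.Λ ∧ y ∈ h.T} := by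
  intro x hx
  have h1 := mem_span_of_int h.span (ι := {n // n ∈ h.Λ ∧ n ∈ h.M}) (φ := fun n => h.B n.1)
    (fun n y hy => h.int _ n.2.1 y hy) (x := x) fun n => by
      rw [h.symm]
      exact hx _ n.2.1 n.2.2
  refine Submodule.span_mono ?_ h1
  refine fun y hy => ⟨hy.1, fun n h2 h3 => ?_⟩
  rw [h.symm]
  exact hy.2 ⟨n, h2, h3⟩

variable [FiniteDimensional ℂ H]

/-- the transcendental part is the smallest rational subspace containing `O₁` and `O₂` -/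
theorem T_le {S : Set H} (hS : ∀ y ∈ S, y ∈ h.Λ) (h1 : h.O₁ ≤ Submodule.span ℂ S)
    (h2 : h.O₂ ≤ Submodule.span ℂ S) : h.T ≤ Submodule.span ℂ S := by
  have hr : h.B.IsRefl := fun x y hxy => by rwa [h.symm]
  have hn : h.B.Nondegenerate := ⟨h.nd, fun x hx => h.nd x fun y => by rw [h.symm]; exact hx y⟩
  intro x hx
  rw [← LinearMap.BilinForm.orthogonal_orthogonal hn hr (Submodule.span ℂ S)]
  intro y hy
  have h3 := mem_span_of_int h.span (ι := S) (φ := fun s => h.B s.1)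
    (fun s z hz => h.int _ (hS _ s.2) z hz) (x := y) fun s => hy _ (Submodule.subset_span s.2)
  show h.B y x = 0
  rw [h.symm]
  refine Submodule.span_induction (p := fun y _ => h.B x y = 0) ?_ (map_zero _)
    (fun a b _ _ ha hb => by rw [map_add, ha, hb, add_zero])
    (fun c a _ ha => by rw [map_smul, ha, smul_zero]) h3
  rintro n ⟨h4, h5⟩
  have h6 : ∀ z ∈ Submodule.span ℂ S, h.B n z = 0 := fun z hz =>
    Submodule.span_induction (p := fun z _ => h.B n z = 0)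
      (fun s hs => by rw [h.symm]; exact h5 ⟨s, hs⟩) (map_zero _)
      (fun a b _ _ ha hb => by rw [map_add, ha, hb, add_zero])
      (fun c a _ ha => by rw [map_smul, ha, smul_zero]) hz
  exact hx n h4 (mem_M (fun z hz => h6 z (h1 hz)) fun z hz => h6 z (h2 hz))

/-- an integral functional which kills `O₁` and `O₂` kills the transcendental part -/
theorem kill_T {φ : H →ₗ[ℂ] ℂ} (hφ : ∀ y ∈ h.Λ, ∃ k : ℤ, φ y = k) (h1 : ∀ y ∈ h.O₁, φ y = 0)
    (h2 : ∀ y ∈ h.O₂, φ y = 0) {x : H} (hx : x ∈ h.T) : φ x = 0 := by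
  have h3 : ∀ y, φ y = 0 → y ∈ Submodule.span ℂ {y | y ∈ h.Λ ∧ ∀ _ : Unit, φ y = 0} :=
    fun y hy => mem_span_of_int h.span (φ := fun _ : Unit => φ) (fun _ => hφ) fun _ => hy
  have h4 := T_le (S := {y | y ∈ h.Λ ∧ ∀ _ : Unit, φ y = 0}) (fun y hy => hy.1)
    (fun y hy => h3 y (h1 y hy)) (fun y hy => h3 y (h2 y hy)) hx
  exact Submodule.span_induction (p := fun y _ => φ y = 0) (fun y hy => hy.2 ()) (map_zero _)
    (fun a b _ _ ha hb => by rw [map_add, ha, hb, add_zero])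
    (fun c a _ ha => by rw [map_smul, ha, smul_zero]) h4


theorem finrank_O₂_le : finrank ℂ h.O₂ ≤ finrank ℂ h.O₁ := by
  rw [← Subspace.dual_finrank_eq (V := h.O₁)]
  refine LinearMap.finrank_le_finrank_of_injective (f := h.B.domRestrict₁₂ h.O₂ h.O₁)
    ((injective_iff_map_eq_zero _).2 fun x hx => Subtype.ext (eq_zero_of_O₂ x.2 fun y hy => ?_))
  exact congrArg (fun f : h.O₁ →ₗ[ℂ] ℂ => f ⟨y, hy⟩) hx

theorem finrank_O₁_le : finrank ℂ h.O₁ ≤ finrank ℂ h.O₂ := by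
  rw [← Subspace.dual_finrank_eq (V := h.O₂)]
  refine LinearMap.finrank_le_finrank_of_injective (f := h.B.domRestrict₁₂ h.O₁ h.O₂)
    ((injective_iff_map_eq_zero _).2 fun x hx => Subtype.ext (eq_zero_of_O₁ x.2 fun y hy => ?_))
  exact congrArg (fun f : h.O₂ →ₗ[ℂ] ℂ => f ⟨y, hy⟩) hx

theorem finrank_O₂ : finrank ℂ h.O₂ = finrank ℂ h.O₁ := le_antisymm finrank_O₂_le finrank_O₁_le

omit [FiniteDimensional ℂ H] in
/-- the generator is primitive -/
theorem exists_dual {L : H} (hL : L ∈ h.Λ) (hM : L ∈ h.M) (h0 : h.B L L ≠ 0)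
    (hg : ∀ n ∈ h.Λ, n ∈ h.M → ∃ c : ℤ, n = c • L) : ∃ γ ∈ h.Λ, h.B L γ = 1 := by
  let I : Ideal ℤ :=
    { carrier := {k | ∃ y ∈ h.Λ, h.B L y = k}
      add_mem' := by
        rintro a b ⟨y, hy, h1⟩ ⟨z, hz, h2⟩
        exact ⟨y + z, add_mem hy hz, by rw [map_add, h1, h2, Int.cast_add]⟩
      zero_mem' := ⟨0, zero_mem _, by simp⟩
      smul_mem' := by
        rintro c a ⟨y, hy, h1⟩
        exact ⟨c • y, zsmul_mem hy c, by rw [map_zsmul, h1, smul_eq_mul, zsmul_eq_mul,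
          Int.cast_mul]⟩ }
  obtain ⟨k, hk⟩ := (IsPrincipalIdealRing.principal I).principal
  have h1 : ∀ y ∈ h.Λ, ∃ m : ℤ, h.B L y = (m * k : ℤ) := fun y hy => by
    obtain ⟨m, hm⟩ := h.int L hL y hy
    have h2 : m ∈ I := ⟨y, hy, hm⟩
    rw [hk] at h2
    obtain ⟨c, hc⟩ := Ideal.mem_span_singleton'.1 h2
    exact ⟨c, by rw [hm, hc]⟩
  have hk0 : (k : ℂ) ≠ 0 := fun h2 => h0 (by
    obtain ⟨m, hm⟩ := h1 L hL
    rw [hm, Int.cast_mul, h2, mul_zero])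
  obtain ⟨c, hc⟩ := hg ((k : ℂ)⁻¹ • L) (h.dual _ fun y hy => by
    obtain ⟨m, hm⟩ := h1 y hy
    refine ⟨m, ?_⟩
    rw [map_smul, LinearMap.smul_apply, hm, smul_eq_mul, Int.cast_mul]
    field_simp) (h.M.smul_mem _ hM)
  have h2 : (c : ℂ) * k = 1 := by
    have h3 := congrArg (h.B L) hc
    rw [map_smul, map_zsmul, smul_eq_mul, zsmul_eq_mul] at h3
    rw [← mul_right_cancel₀ h0 h3, inv_mul_cancel₀ hk0]
  obtain ⟨y, hy, h3⟩ : k ∈ I := hk ▸ Ideal.mem_span_singleton_self k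
  exact ⟨c • y, zsmul_mem hy c, by rw [map_zsmul, h3, zsmul_eq_mul, h2]⟩

end HL

/-- an integral map which preserves the types and the pairing of `O₁` with `O₂` -/
structure Corr (h : HL H) (h' : HL H') (ψ : H →ₗ[ℂ] H') : Prop where
  int : ∀ x ∈ h.Λ, ψ x ∈ h'.Λ
  o1 : ∀ x ∈ h.O₁, ψ x ∈ h'.O₁
  m : ∀ x ∈ h.M, ψ x ∈ h'.M
  o2 : ∀ x ∈ h.O₂, ψ x ∈ h'.O₂
  pair : ∀ x ∈ h.O₁, ∀ y ∈ h.O₂, h'.B (ψ x) (ψ y) = h.B x y

namespace Corr

variable {h : HL H} {h' : HL H'} {h'' : HL H''} {ψ : H →ₗ[ℂ] H'} {χ : H' →ₗ[ℂ] H''}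

theorem comp (c : Corr h h' ψ) (c' : Corr h' h'' χ) : Corr h h'' (χ ∘ₗ ψ) where
  int x hx := c'.int _ (c.int x hx)
  o1 x hx := c'.o1 _ (c.o1 x hx)
  m x hx := c'.m _ (c.m x hx)
  o2 x hx := c'.o2 _ (c.o2 x hx)
  pair x hx y hy := (c'.pair _ (c.o1 x hx) _ (c.o2 y hy)).trans (c.pair x hx y hy)

theorem neg (c : Corr h h' ψ) : Corr h h' (-ψ) where
  int x hx := neg_mem (c.int x hx)
  o1 x hx := neg_mem (c.o1 x hx)
  m x hx := neg_mem (c.m x hx)
  o2 x hx := neg_mem (c.o2 x hx)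
  pair x hx y hy := by
    rw [← c.pair x hx y hy]
    simp

/-- a correspondence from its pairing -/
theorem of_pair (hi : ∀ x ∈ h.Λ, ∀ y ∈ h'.Λ, ∃ k : ℤ, h'.B (ψ x) y = k)
    (h11 : ∀ x ∈ h.O₁, ∀ y ∈ h'.O₁, h'.B (ψ x) y = 0)
    (h1M : ∀ x ∈ h.O₁, ∀ y ∈ h'.M, h'.B (ψ x) y = 0)
    (hM1 : ∀ x ∈ h.M, ∀ y ∈ h'.O₁, h'.B (ψ x) y = 0)
    (hM2 : ∀ x ∈ h.M, ∀ y ∈ h'.O₂, h'.B (ψ x) y = 0)
    (h2M : ∀ x ∈ h.O₂, ∀ y ∈ h'.M, h'.B (ψ x) y = 0)
    (h22 : ∀ x ∈ h.O₂, ∀ y ∈ h'.O₂, h'.B (ψ x) y = 0)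
    (hp : ∀ x ∈ h.O₁, ∀ y ∈ h.O₂, h'.B (ψ x) (ψ y) = h.B x y) : Corr h h' ψ where
  int x hx := h'.dual _ (hi x hx)
  o1 x hx := HL.mem_O₁ (h11 x hx) (h1M x hx)
  m x hx := HL.mem_M (hM1 x hx) (hM2 x hx)
  o2 x hx := HL.mem_O₂ (h22 x hx) (h2M x hx)
  pair := hp

variable [FiniteDimensional ℂ H]

theorem map_T (c : Corr h h' ψ) {x : H} (hx : x ∈ h.T) : ψ x ∈ h'.T := fun n h1 h2 =>
  HL.kill_T (φ := h'.B.flip n ∘ₗ ψ) (fun y hy => h'.int _ (c.int y hy) n h1)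
    (fun y hy => h'.o1M _ (c.o1 y hy) n h2) (fun y hy => h'.o2M _ (c.o2 y hy) n h2) hx

/-- a correspondence is an isometry on the transcendental part -/
theorem iso (c : Corr h h' ψ) {x : H} (hx : x ∈ h.T) (y : H) :
    h'.B (ψ x) (ψ y) = h.B x y := by
  have h1 : ∀ y ∈ h.Λ, h'.B (ψ x) (ψ y) = h.B x y := by
    intro y hy
    obtain ⟨a, ha, b, hb, e, he, h2⟩ := h.dec y
    refine sub_eq_zero.1 (HL.kill_T (φ := h'.B.flip (ψ y) ∘ₗ ψ - h.B.flip y) (fun z hz => ?_)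
      (fun z hz => sub_eq_zero.2 ?_) (fun z hz => sub_eq_zero.2 ?_) hx)
    · obtain ⟨k, hk⟩ := h'.int _ (c.int z hz) _ (c.int y hy)
      obtain ⟨k', hk'⟩ := h.int z hz y hy
      exact ⟨k - k', by rw [Int.cast_sub, ← hk, ← hk']; rfl⟩
    · show h'.B (ψ z) (ψ y) = h.B z y
      rw [h2]
      simp only [map_add]
      rw [h'.o11 _ (c.o1 z hz) _ (c.o1 a ha), h'.o1M _ (c.o1 z hz) _ (c.m b hb),
        c.pair z hz e he, h.o11 z hz a ha, h.o1M z hz b hb]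
    · show h'.B (ψ z) (ψ y) = h.B z y
      rw [h2]
      simp only [map_add]
      rw [h'.o22 _ (c.o2 z hz) _ (c.o2 e he), h'.o2M _ (c.o2 z hz) _ (c.m b hb), h'.symm,
        c.pair a ha z hz, h.o22 z hz e he, h.o2M z hz b hb, h.symm]
  exact Submodule.span_induction (p := fun y _ => h'.B (ψ x) (ψ y) = h.B x y) h1 (by simp)
    (fun a b _ _ ha hb => by rw [map_add, map_add, map_add, ha, hb])
    (fun r a _ ha => by rw [map_smul, map_smul, map_smul, ha]) (h.span ▸ Submodule.mem_top (x := y))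

theorem inj (c : Corr h h' ψ) {x : H} (hx : x ∈ h.T) (h0 : ψ x = 0) : x = 0 :=
  h.nd x fun y => by rw [← c.iso hx, h0, map_zero, LinearMap.zero_apply]

theorem finrank_map (c : Corr h h' ψ) {N : Submodule ℂ H} (hN : N ≤ h.T) :
    finrank ℂ (N.map ψ) = finrank ℂ N := by
  have h1 : Function.Injective (ψ.domRestrict N) :=
    (injective_iff_map_eq_zero _).2 fun x hx => Subtype.ext (c.inj (hN x.2) hx)
  rw [← LinearMap.finrank_range_of_inj h1, LinearMap.range_domRestrict]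

variable [FiniteDimensional ℂ H']

theorem finrank_O₁_le (c : Corr h h' ψ) : finrank ℂ h.O₁ ≤ finrank ℂ h'.O₁ := by
  rw [← c.finrank_map HL.O₁_le_T]
  exact Submodule.finrank_mono (Submodule.map_le_iff_le_comap.2 c.o1)


theorem map_O₁ (c : Corr h h' ψ) (he : finrank ℂ h'.O₁ ≤ finrank ℂ h.O₁) :
    h.O₁.map ψ = h'.O₁ :=
  Submodule.eq_of_le_of_finrank_le (Submodule.map_le_iff_le_comap.2 c.o1)
    (by rwa [c.finrank_map HL.O₁_le_T])

theorem map_O₂ (c : Corr h h' ψ) (he : finrank ℂ h'.O₁ ≤ finrank ℂ h.O₁) :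
    h.O₂.map ψ = h'.O₂ :=
  Submodule.eq_of_le_of_finrank_le (Submodule.map_le_iff_le_comap.2 c.o2)
    (by rwa [c.finrank_map HL.O₂_le_T, HL.finrank_O₂, HL.finrank_O₂])

/-- a correspondence between surfaces with the same geometric genus is onto -/
theorem onto (c : Corr h h' ψ) (he : finrank ℂ h'.O₁ ≤ finrank ℂ h.O₁) : h.T.map ψ = h'.T := by
  refine le_antisymm (Submodule.map_le_iff_le_comap.2 fun x hx => c.map_T hx) ?_
  have h1 : h.T.map ψ ≤ Submodule.span ℂ (ψ '' {y | y ∈ h.Λ ∧ y ∈ h.T}) := by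
    rw [← Submodule.map_span]
    exact Submodule.map_mono HL.T_le_span
  refine (HL.T_le (S := ψ '' {y | y ∈ h.Λ ∧ y ∈ h.T}) ?_ ?_ ?_).trans (Submodule.span_le.2 ?_)
  · rintro _ ⟨y, hy, rfl⟩
    exact c.int y hy.1
  · exact c.map_O₁ he ▸ (Submodule.map_mono HL.O₁_le_T).trans h1
  · exact c.map_O₂ he ▸ (Submodule.map_mono HL.O₂_le_T).trans h1
  · rintro _ ⟨y, hy, rfl⟩
    exact ⟨y, hy.2, rfl⟩

theorem finrank_T (c : Corr h h' ψ) (he : finrank ℂ h'.O₁ ≤ finrank ℂ h.O₁) :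
    finrank ℂ h.T = finrank ℂ h'.T := by
  rw [← c.onto he, c.finrank_map le_rfl]

theorem finrank_O₁ (c : Corr h h' ψ) (h0 : h.O₁ ≠ ⊥) (h1 : finrank ℂ h'.O₁ = 1) :
    finrank ℂ h.O₁ = 1 :=
  le_antisymm (h1 ▸ c.finrank_O₁_le) (Submodule.one_le_finrank_iff.2 h0)

/-- the adjoint of a correspondence between surfaces with the same geometric genus -/
theorem adj (c : Corr h h' ψ) (he : finrank ℂ h'.O₁ ≤ finrank ℂ h.O₁) {g : H' →ₗ[ℂ] H}
    (hg : ∀ x y, h.B (g x) y = h'.B x (ψ y)) : Corr h' h g := by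
  have h1 : ∀ x ∈ h.T, g (ψ x) = x := fun x hx => HL.eq_of_B fun z => by rw [hg, c.iso hx]
  refine of_pair (fun x hx y hy => hg x y ▸ h'.int x hx _ (c.int y hy))
    (fun x hx y hy => hg x y ▸ h'.o11 x hx _ (c.o1 y hy))
    (fun x hx y hy => hg x y ▸ h'.o1M x hx _ (c.m y hy))
    (fun x hx y hy => by rw [hg, h'.symm, h'.o1M _ (c.o1 y hy) x hx])
    (fun x hx y hy => by rw [hg, h'.symm, h'.o2M _ (c.o2 y hy) x hx])
    (fun x hx y hy => hg x y ▸ h'.o2M x hx _ (c.m y hy))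
    (fun x hx y hy => hg x y ▸ h'.o22 x hx _ (c.o2 y hy)) fun x _ y hy => ?_
  obtain ⟨z, hz, rfl⟩ : y ∈ h.O₂.map ψ := (c.map_O₂ he).symm ▸ hy
  rw [hg, h1 z (HL.O₂_le_T hz)]

/-- the degree of the target divides the degree of the source -/
theorem dvd (c : Corr h h' ψ) (he : finrank ℂ h'.O₁ ≤ finrank ℂ h.O₁) {d d' : ℕ}
    (hd : h.Pic1 d) (hd' : h'.Pic1 d') : d' ∣ d := by
  obtain ⟨-, L, h1, h2, h3, h4⟩ := hd
  obtain ⟨h0, L', h1', h2', h3', h4'⟩ := hd'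
  have h0' : (d' : ℂ) ≠ 0 := Nat.cast_ne_zero.2 h0
  obtain ⟨γ, hγ, h5⟩ := HL.exists_dual h1' h2' (h3' ▸ h0') h4'
  have h6 : γ - (d' : ℂ)⁻¹ • L' ∈ h'.T := fun n h7 h8 => by
    obtain ⟨k, rfl⟩ := h4' n h7 h8
    rw [map_zsmul, map_sub, LinearMap.sub_apply, map_smul, LinearMap.smul_apply, h'.symm γ, h5,
      h3', smul_eq_mul, inv_mul_cancel₀ h0', sub_self, smul_zero]
  obtain ⟨y, hy, h7⟩ : γ - (d' : ℂ)⁻¹ • L' ∈ h.T.map ψ := (c.onto he).symm ▸ h6
  have h8 : (d : ℂ) • y ∈ h.Λ := h.dual _ fun μ hμ => by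
    obtain ⟨k, hk⟩ := h.int μ hμ L h1
    have h9 : d • μ - k • L ∈ h.T := fun n h10 h11 => by
      obtain ⟨m, rfl⟩ := h4 n h10 h11
      rw [map_zsmul, map_sub, LinearMap.sub_apply, map_nsmul, map_zsmul, LinearMap.smul_apply,
        LinearMap.smul_apply, hk, h3, nsmul_eq_mul, zsmul_eq_mul (d : ℂ), mul_comm (d : ℂ), sub_self,
        smul_zero]
    obtain ⟨m, hm⟩ := h'.int γ hγ _ (c.int _ (sub_mem (nsmul_mem hμ d) (zsmul_mem h1 k)))
    refine ⟨m, ?_⟩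
    have h10 := c.iso hy (d • μ - k • L)
    rw [h7, map_sub h'.B, LinearMap.sub_apply, hm, map_smul, LinearMap.smul_apply, h'.symm L',
      c.map_T h9 L' h1' h2', smul_zero, sub_zero, map_sub, map_nsmul, map_zsmul, hy L h1 h2,
      smul_zero, sub_zero, nsmul_eq_mul] at h10
    rw [map_smul, LinearMap.smul_apply, smul_eq_mul, h10]
  obtain ⟨k, hk⟩ := h'.int _ (c.int _ h8) γ hγ
  obtain ⟨k', hk'⟩ := h'.int γ hγ γ hγ
  rw [map_smul, h7, map_smul, LinearMap.smul_apply, map_sub, LinearMap.sub_apply, map_smul,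
    LinearMap.smul_apply, h5, hk', smul_eq_mul, smul_eq_mul, mul_one] at hk
  have h9 : (d : ℂ) = d' * (d * k' - k) := by
    rw [← hk]
    field_simp
    ring
  exact Int.natCast_dvd_natCast.1 ⟨d * k' - k, by exact_mod_cast h9⟩

end Corr

end Crest.Agent.X262.Int23
end

-- ▼ part X262/Int23/Abs2
section

/-!
# Row 262, INT (helper23), part 2: pairs of correspondences with a multiplier

* `Hom h h' ψ`        : integral and type preserving;
* `Cor2 h h' ψ χ N`   : two such maps with `(ψ x, χ y) = N (x, y)` on `O₁ × O₂` and `O₂ × O₁`;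
* `Cor2.comp`, `Corr.cor2`, `Cor2.iso`, `Cor2.onto`, `Cor2.finrank_T`, `Cor2.finrank_O₁`;
* `Cor2.dvd`          : the degree of the target divides `N` times the degree of the source.
-/

set_option autoImplicit false

namespace Crest.Agent.X262.Int23

open Module

variable {H H' H'' : Type*} [AddCommGroup H] [Module ℂ H] [AddCommGroup H'] [Module ℂ H']
  [AddCommGroup H''] [Module ℂ H'']

/-- an integral map which preserves the types -/
structure Hom (h : HL H) (h' : HL H') (ψ : H →ₗ[ℂ] H') : Prop where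
  int : ∀ x ∈ h.Λ, ψ x ∈ h'.Λ
  o1 : ∀ x ∈ h.O₁, ψ x ∈ h'.O₁
  m : ∀ x ∈ h.M, ψ x ∈ h'.M
  o2 : ∀ x ∈ h.O₂, ψ x ∈ h'.O₂

variable {h : HL H} {h' : HL H'} {h'' : HL H''} {ψ χ : H →ₗ[ℂ] H'} {ψ' χ' : H' →ₗ[ℂ] H''}
  {N N' : ℤ}

namespace Hom

theorem comp (c : Hom h h' ψ) (c' : Hom h' h'' ψ') : Hom h h'' (ψ' ∘ₗ ψ) where
  int x hx := c'.int _ (c.int x hx)
  o1 x hx := c'.o1 _ (c.o1 x hx)
  m x hx := c'.m _ (c.m x hx)
  o2 x hx := c'.o2 _ (c.o2 x hx)

theorem neg (c : Hom h h' ψ) : Hom h h' (-ψ) where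
  int x hx := neg_mem (c.int x hx)
  o1 x hx := neg_mem (c.o1 x hx)
  m x hx := neg_mem (c.m x hx)
  o2 x hx := neg_mem (c.o2 x hx)

theorem of_pair (hi : ∀ x ∈ h.Λ, ∀ y ∈ h'.Λ, ∃ k : ℤ, h'.B (ψ x) y = k)
    (h11 : ∀ x ∈ h.O₁, ∀ y ∈ h'.O₁, h'.B (ψ x) y = 0)
    (h1M : ∀ x ∈ h.O₁, ∀ y ∈ h'.M, h'.B (ψ x) y = 0)
    (hM1 : ∀ x ∈ h.M, ∀ y ∈ h'.O₁, h'.B (ψ x) y = 0)
    (hM2 : ∀ x ∈ h.M, ∀ y ∈ h'.O₂, h'.B (ψ x) y = 0)
    (h2M : ∀ x ∈ h.O₂, ∀ y ∈ h'.M, h'.B (ψ x) y = 0)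
    (h22 : ∀ x ∈ h.O₂, ∀ y ∈ h'.O₂, h'.B (ψ x) y = 0) : Hom h h' ψ where
  int x hx := h'.dual _ (hi x hx)
  o1 x hx := HL.mem_O₁ (h11 x hx) (h1M x hx)
  m x hx := HL.mem_M (hM1 x hx) (hM2 x hx)
  o2 x hx := HL.mem_O₂ (h22 x hx) (h2M x hx)

/-- the adjoint -/
theorem adj (c : Hom h h' ψ) {g : H' →ₗ[ℂ] H} (hg : ∀ x y, h.B (g x) y = h'.B x (ψ y)) :
    Hom h' h g :=
  of_pair (fun x hx y hy => hg x y ▸ h'.int x hx _ (c.int y hy))
    (fun x hx y hy => hg x y ▸ h'.o11 x hx _ (c.o1 y hy))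
    (fun x hx y hy => hg x y ▸ h'.o1M x hx _ (c.m y hy))
    (fun x hx y hy => by rw [hg, h'.symm, h'.o1M _ (c.o1 y hy) x hx])
    (fun x hx y hy => by rw [hg, h'.symm, h'.o2M _ (c.o2 y hy) x hx])
    (fun x hx y hy => hg x y ▸ h'.o2M x hx _ (c.m y hy))
    (fun x hx y hy => hg x y ▸ h'.o22 x hx _ (c.o2 y hy))

theorem map_T [FiniteDimensional ℂ H] (c : Hom h h' ψ) {x : H} (hx : x ∈ h.T) : ψ x ∈ h'.T :=
  fun n h1 h2 =>
    HL.kill_T (φ := h'.B.flip n ∘ₗ ψ) (fun y hy => h'.int _ (c.int y hy) n h1)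
      (fun y hy => h'.o1M _ (c.o1 y hy) n h2) (fun y hy => h'.o2M _ (c.o2 y hy) n h2) hx

end Hom

theorem Corr.hom (c : Corr h h' ψ) : Hom h h' ψ := ⟨c.int, c.o1, c.m, c.o2⟩


/-- two integral type preserving maps which are adjoint inverse on `O₁`, `O₂` up to `N` -/
structure Cor2 (h : HL H) (h' : HL H') (ψ χ : H →ₗ[ℂ] H') (N : ℤ) : Prop where
  l : Hom h h' ψ
  r : Hom h h' χ
  ne : N ≠ 0
  p12 : ∀ x ∈ h.O₁, ∀ y ∈ h.O₂, h'.B (ψ x) (χ y) = N * h.B x y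
  p21 : ∀ x ∈ h.O₂, ∀ y ∈ h.O₁, h'.B (ψ x) (χ y) = N * h.B x y

theorem Corr.cor2 (c : Corr h h' ψ) : Cor2 h h' ψ ψ 1 where
  l := c.hom
  r := c.hom
  ne := one_ne_zero
  p12 x hx y hy := by rw [c.pair x hx y hy, Int.cast_one, one_mul]
  p21 x hx y hy := by rw [h'.symm, c.pair y hy x hx, Int.cast_one, one_mul, h.symm]

namespace Cor2

theorem comp (c : Cor2 h h' ψ χ N) (c' : Cor2 h' h'' ψ' χ' N') :
    Cor2 h h'' (ψ' ∘ₗ ψ) (χ' ∘ₗ χ) (N' * N) where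
  l := c.l.comp c'.l
  r := c.r.comp c'.r
  ne := mul_ne_zero c'.ne c.ne
  p12 x hx y hy := (c'.p12 _ (c.l.o1 x hx) _ (c.r.o2 y hy)).trans (by
    rw [c.p12 x hx y hy, Int.cast_mul, mul_assoc])
  p21 x hx y hy := (c'.p21 _ (c.l.o2 x hx) _ (c.r.o1 y hy)).trans (by
    rw [c.p21 x hx y hy, Int.cast_mul, mul_assoc])


theorem neg (c : Cor2 h h' ψ χ N) : Cor2 h h' ψ (-χ) (-N) where
  l := c.l
  r := c.r.neg
  ne := neg_ne_zero.2 c.ne
  p12 x hx y hy := by rw [LinearMap.neg_apply, map_neg, c.p12 x hx y hy, Int.cast_neg, neg_mul]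
  p21 x hx y hy := by rw [LinearMap.neg_apply, map_neg, c.p21 x hx y hy, Int.cast_neg, neg_mul]

variable [FiniteDimensional ℂ H]

theorem iso (c : Cor2 h h' ψ χ N) {x : H} (hx : x ∈ h.T) (y : H) :
    h'.B (ψ x) (χ y) = N * h.B x y := by
  have h1 : ∀ y ∈ h.Λ, h'.B (ψ x) (χ y) = N * h.B x y := by
    intro y hy
    obtain ⟨a, ha, b, hb, e, he, h2⟩ := h.dec y
    refine sub_eq_zero.1 (HL.kill_T (φ := h'.B.flip (χ y) ∘ₗ ψ - (N : ℂ) • h.B.flip y)
      (fun z hz => ?_) (fun z hz => sub_eq_zero.2 ?_) (fun z hz => sub_eq_zero.2 ?_) hx)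
    · obtain ⟨k, hk⟩ := h'.int _ (c.l.int z hz) _ (c.r.int y hy)
      obtain ⟨k', hk'⟩ := h.int z hz y hy
      exact ⟨k - N * k', by rw [Int.cast_sub, Int.cast_mul, ← hk, ← hk']; rfl⟩
    · show h'.B (ψ z) (χ y) = N * h.B z y
      rw [h2]
      simp only [map_add]
      rw [h'.o11 _ (c.l.o1 z hz) _ (c.r.o1 a ha), h'.o1M _ (c.l.o1 z hz) _ (c.r.m b hb),
        c.p12 z hz e he, h.o11 z hz a ha, h.o1M z hz b hb]
      ring
    · show h'.B (ψ z) (χ y) = N * h.B z y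
      rw [h2]
      simp only [map_add]
      rw [h'.o22 _ (c.l.o2 z hz) _ (c.r.o2 e he), h'.o2M _ (c.l.o2 z hz) _ (c.r.m b hb),
        c.p21 z hz a ha, h.o22 z hz e he, h.o2M z hz b hb]
      ring
  exact Submodule.span_induction (p := fun y _ => h'.B (ψ x) (χ y) = N * h.B x y) h1 (by simp)
    (fun a b _ _ ha hb => by rw [map_add, map_add, map_add, ha, hb, mul_add])
    (fun r a _ ha => by
      rw [map_smul, map_smul, map_smul, ha, smul_eq_mul, smul_eq_mul, mul_left_comm])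
    (h.span ▸ Submodule.mem_top (x := y))

theorem inj (c : Cor2 h h' ψ χ N) {x : H} (hx : x ∈ h.T) (h0 : ψ x = 0) : x = 0 :=
  h.nd x fun y => by
    have h1 := c.iso hx y
    rw [h0, map_zero, LinearMap.zero_apply] at h1
    exact (mul_eq_zero.1 h1.symm).resolve_left (Int.cast_ne_zero.2 c.ne)

theorem finrank_map (c : Cor2 h h' ψ χ N) {S : Submodule ℂ H} (hS : S ≤ h.T) :
    finrank ℂ (S.map ψ) = finrank ℂ S := by
  have h1 : Function.Injective (ψ.domRestrict S) :=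
    (injective_iff_map_eq_zero _).2 fun x hx => Subtype.ext (c.inj (hS x.2) hx)
  rw [← LinearMap.finrank_range_of_inj h1, LinearMap.range_domRestrict]

variable [FiniteDimensional ℂ H']

theorem finrank_O₁_le (c : Cor2 h h' ψ χ N) : finrank ℂ h.O₁ ≤ finrank ℂ h'.O₁ := by
  rw [← c.finrank_map HL.O₁_le_T]
  exact Submodule.finrank_mono (Submodule.map_le_iff_le_comap.2 c.l.o1)


theorem map_O₁ (c : Cor2 h h' ψ χ N) (he : finrank ℂ h'.O₁ ≤ finrank ℂ h.O₁) :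
    h.O₁.map ψ = h'.O₁ :=
  Submodule.eq_of_le_of_finrank_le (Submodule.map_le_iff_le_comap.2 c.l.o1)
    (by rwa [c.finrank_map HL.O₁_le_T])

theorem map_O₂ (c : Cor2 h h' ψ χ N) (he : finrank ℂ h'.O₁ ≤ finrank ℂ h.O₁) :
    h.O₂.map ψ = h'.O₂ :=
  Submodule.eq_of_le_of_finrank_le (Submodule.map_le_iff_le_comap.2 c.l.o2)
    (by rwa [c.finrank_map HL.O₂_le_T, HL.finrank_O₂, HL.finrank_O₂])

theorem onto (c : Cor2 h h' ψ χ N) (he : finrank ℂ h'.O₁ ≤ finrank ℂ h.O₁) :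
    h.T.map ψ = h'.T := by
  refine le_antisymm (Submodule.map_le_iff_le_comap.2 fun x hx => c.l.map_T hx) ?_
  have h1 : h.T.map ψ ≤ Submodule.span ℂ (ψ '' {y | y ∈ h.Λ ∧ y ∈ h.T}) := by
    rw [← Submodule.map_span]
    exact Submodule.map_mono HL.T_le_span
  refine (HL.T_le (S := ψ '' {y | y ∈ h.Λ ∧ y ∈ h.T}) ?_ ?_ ?_).trans (Submodule.span_le.2 ?_)
  · rintro _ ⟨y, hy, rfl⟩
    exact c.l.int y hy.1
  · exact c.map_O₁ he ▸ (Submodule.map_mono HL.O₁_le_T).trans h1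
  · exact c.map_O₂ he ▸ (Submodule.map_mono HL.O₂_le_T).trans h1
  · rintro _ ⟨y, hy, rfl⟩
    exact ⟨y, hy.2, rfl⟩

theorem finrank_T (c : Cor2 h h' ψ χ N) (he : finrank ℂ h'.O₁ ≤ finrank ℂ h.O₁) :
    finrank ℂ h.T = finrank ℂ h'.T := by
  rw [← c.onto he, c.finrank_map le_rfl]

theorem finrank_O₁ (c : Cor2 h h' ψ χ N) (h0 : h.O₁ ≠ ⊥) (h1 : finrank ℂ h'.O₁ = 1) :
    finrank ℂ h.O₁ = 1 :=
  le_antisymm (h1 ▸ c.finrank_O₁_le) (Submodule.one_le_finrank_iff.2 h0)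

/-- the degree of the target divides `N` times the degree of the source -/
theorem dvd (c : Cor2 h h' ψ χ N) (he : finrank ℂ h'.O₁ ≤ finrank ℂ h.O₁) {d d' : ℕ}
    (hd : h.Pic1 d) (hd' : h'.Pic1 d') : (d' : ℤ) ∣ N * d := by
  obtain ⟨-, L, h1, h2, h3, h4⟩ := hd
  obtain ⟨h0, L', h1', h2', h3', h4'⟩ := hd'
  have h0' : (d' : ℂ) ≠ 0 := Nat.cast_ne_zero.2 h0
  obtain ⟨γ, hγ, h5⟩ := HL.exists_dual h1' h2' (h3' ▸ h0') h4'
  have h6 : γ - (d' : ℂ)⁻¹ • L' ∈ h'.T := fun n h7 h8 => by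
    obtain ⟨k, rfl⟩ := h4' n h7 h8
    rw [map_zsmul, map_sub, LinearMap.sub_apply, map_smul, LinearMap.smul_apply, h'.symm γ, h5,
      h3', smul_eq_mul, inv_mul_cancel₀ h0', sub_self, smul_zero]
  obtain ⟨y, hy, h7⟩ : γ - (d' : ℂ)⁻¹ • L' ∈ h.T.map ψ := (c.onto he).symm ▸ h6
  have h8 : ((N : ℂ) * d) • y ∈ h.Λ := h.dual _ fun μ hμ => by
    obtain ⟨k, hk⟩ := h.int μ hμ L h1
    have h9 : d • μ - k • L ∈ h.T := fun n h10 h11 => by
      obtain ⟨m, rfl⟩ := h4 n h10 h11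
      rw [map_zsmul, map_sub, LinearMap.sub_apply, map_nsmul, map_zsmul, LinearMap.smul_apply,
        LinearMap.smul_apply, hk, h3, nsmul_eq_mul, zsmul_eq_mul (d : ℂ), mul_comm (d : ℂ),
        sub_self, smul_zero]
    obtain ⟨m, hm⟩ := h'.int γ hγ _ (c.r.int _ (sub_mem (nsmul_mem hμ d) (zsmul_mem h1 k)))
    refine ⟨m, ?_⟩
    have h10 := c.iso hy (d • μ - k • L)
    rw [h7, map_sub h'.B, LinearMap.sub_apply, hm, map_smul, LinearMap.smul_apply, h'.symm L',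
      c.r.map_T h9 L' h1' h2', smul_zero, sub_zero, map_sub, map_nsmul, map_zsmul, hy L h1 h2,
      smul_zero, sub_zero, nsmul_eq_mul] at h10
    rw [map_smul, LinearMap.smul_apply, smul_eq_mul, h10, mul_assoc]
  obtain ⟨k, hk⟩ := h'.int _ (c.l.int _ h8) γ hγ
  obtain ⟨k', hk'⟩ := h'.int γ hγ γ hγ
  rw [map_smul, h7, map_smul, LinearMap.smul_apply, map_sub, LinearMap.sub_apply, map_smul,
    LinearMap.smul_apply, h5, hk', smul_eq_mul, smul_eq_mul, mul_one] at hk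
  have h9 : (N : ℂ) * d = d' * (N * d * k' - k) := by
    rw [← hk]
    field_simp
    ring
  exact ⟨N * d * k' - k, by exact_mod_cast h9⟩

theorem le (c : Cor2 h h' ψ χ N) (he : finrank ℂ h'.O₁ ≤ finrank ℂ h.O₁) {d d' : ℕ}
    (hd : h.Pic1 d) (hd' : h'.Pic1 d') : d' ≤ N.natAbs * d := by
  have h1 := Int.natAbs_dvd_natAbs.2 (c.dvd he hd hd')
  rw [Int.natAbs_mul, Int.natAbs_natCast, Int.natAbs_natCast] at h1
  exact Nat.le_of_dvd (Nat.pos_of_ne_zero (mul_ne_zero (Int.natAbs_ne_zero.2 c.ne) hd.1)) h1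

end Cor2

end Crest.Agent.X262.Int23
end

-- ▼ part X262/Int23/Hl

/-!
# Row 262, INT (helper23), part 3: the Hodge lattice of a surface in a cohomology theory

* calculus: `dg_ind`, `eq_zero_of_dg`, `push_adj`, `push_dg`, `push_typ`, `itg_pb`;
* `hl A X h` : the Hodge lattice on `C.dg X 1`;
* `Pre C f` : integral and type preserving maps; `Rel A X Y N` : there is a `Cor2`.
-/

set_option autoImplicit false
set_option linter.style.haveILetI false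

noncomputable section

namespace Crest.Agent.X262.Int23

open Module Crest.Agent.X262.Coh Crest.Agent.X277 Crest.Agent.X277.Lef Crest.Agent.X277.AN.G1
  Crest.Agent.X277.BD Crest.Agent.X277.BD.Br

variable {C : Th} (A : C.Ax) {X Y Z : SV}

include A

/-! ### gradings -/

theorem dg_ind {p : C.H X → Prop} (h : ∀ k, ∀ x ∈ C.dg X k, p x)
    (ha : ∀ x y, p x → p y → p (x + y)) (x : C.H X) : p x :=
  Submodule.iSup_induction (C.dg X) (motive := p)
    ((A.man.dg_int X).submodule_iSup_eq_top ▸ Submodule.mem_top (x := x)) h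
    (h 0 0 (zero_mem _)) ha

theorem typ_ind {p : C.H X → Prop} (h : ∀ i j, ∀ x ∈ C.typ X i j, p x)
    (ha : ∀ x y, p x → p y → p (x + y)) (x : C.H X) : p x :=
  Submodule.iSup_induction (fun pq : ℕ × ℕ => C.typ X pq.1 pq.2) (motive := p)
    ((A.typ.int X).submodule_iSup_eq_top ▸ Submodule.mem_top (x := x)) (fun pq => h pq.1 pq.2)
    (h 0 0 0 (zero_mem _)) ha

theorem typ_gt' (p : ℕ) {q : ℕ} (h : X.dim < q) : C.typ X p q = ⊥ :=
  (Submodule.eq_bot_iff _).2 fun a ha => by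
    have h1 := A.typ.cj X a ha
    rw [A.typ.gt X p h, Submodule.mem_bot] at h1
    rw [← A.man.cj_cj X a, h1, map_zero]

/-- only the type `(n, n)` is integrated -/
theorem itg_typ {p q : ℕ} (h : p ≠ X.dim ∨ q ≠ X.dim) {a : C.H X} (ha : a ∈ C.typ X p q) :
    C.itg X a = 0 := by
  rcases Nat.even_or_odd (p + q) with ⟨k, hk⟩ | h1
  · by_cases h2 : k = X.dim
    · rcases Nat.lt_or_ge X.dim p with h3 | h3
      · rw [A.typ.gt X q h3, Submodule.mem_bot] at ha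
        rw [ha, map_zero]
      · rw [typ_gt' A p (show X.dim < q by omega), Submodule.mem_bot] at ha
        rw [ha, map_zero]
    · exact A.man.itg_dg X h2 a (A.typ.le X (hk.trans (two_mul k).symm) ha)
  · rw [A.typ.odd X h1, Submodule.mem_bot] at ha
    rw [ha, map_zero]

theorem eq_zero_of_itg {x : C.H X} (h : ∀ y, C.itg X (x * y) = 0) : x = 0 := (A.pd X).2 x h

theorem eq_of_itg {x x' : C.H X} (h : ∀ y, C.itg X (x * y) = C.itg X (x' * y)) : x = x' :=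
  sub_eq_zero.1 (eq_zero_of_itg A fun y => by rw [sub_mul, map_sub, h, sub_self])

theorem eq_zero_of_dg {i j : ℕ} (hij : i + j = X.dim) {x : C.H X} (hx : x ∈ C.dg X i)
    (h : ∀ y ∈ C.dg X j, C.itg X (x * y) = 0) : x = 0 :=
  eq_zero_of_itg A (dg_ind A (fun k y hy => by
    by_cases hk : k = j
    · exact h y (hk ▸ hy)
    · exact A.man.itg_dg X (by omega) _ (A.man.dg_mul X hx hy))
    fun y z hy hz => by rw [mul_add, map_add, hy, hz, add_zero])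

/-- a class which pairs only with degree `j` has degree `n - j` -/
theorem mem_dg {i j : ℕ} (hij : i + j = X.dim) {x : C.H X}
    (h : ∀ k, k ≠ j → ∀ y ∈ C.dg X k, C.itg X (x * y) = 0) : x ∈ C.dg X i := by
  classical
  letI := (A.man.dg_int X).chooseDecomposition
  rw [← DirectSum.sum_support_decompose (C.dg X) x]
  refine Submodule.sum_mem _ fun k _ => ?_
  by_cases hk : k = i
  · exact hk ▸ (DirectSum.decompose (C.dg X) x k).2
  rcases Nat.lt_or_ge X.dim k with h1 | h1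
  · have h2 := (DirectSum.decompose (C.dg X) x k).2
    rw [(Submodule.eq_bot_iff _).1 (A.man.dg_gt X h1) _ h2]
    exact zero_mem _
  obtain ⟨l, hl⟩ := Nat.exists_eq_add_of_le h1
  rw [eq_zero_of_dg A hl.symm (DirectSum.decompose (C.dg X) x k).2 fun y hy => ?_]
  · exact zero_mem _
  have h2 := h l (by omega) y hy
  rw [← DirectSum.sum_support_decompose (C.dg X) x, Finset.sum_mul, map_sum,
    Finset.sum_eq_single k] at h2
  · exact h2
  · intro m _ hm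
    exact A.man.itg_dg X (by omega) _ (A.man.dg_mul X (DirectSum.decompose (C.dg X) x m).2 hy)
  · intro h3
    rw [DFinsupp.notMem_support_iff.1 h3, Submodule.coe_zero, zero_mul, map_zero]

/-- a class which pairs only with type `(p', q')` has type `(n - p', n - q')` -/
theorem mem_typ {p q p' q' : ℕ} (hp : p + p' = X.dim) (hq : q + q' = X.dim) {x : C.H X}
    (h : ∀ i j, i ≠ p' ∨ j ≠ q' → ∀ y ∈ C.typ X i j, C.itg X (x * y) = 0) : x ∈ C.typ X p q := by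
  classical
  letI := (A.typ.int X).chooseDecomposition
  let D := DirectSum.decompose (fun pq : ℕ × ℕ => C.typ X pq.1 pq.2) x
  have h0 : ∑ k ∈ D.support, (D k : C.H X) = x := DirectSum.sum_support_decompose _ x
  rw [← h0]
  refine Submodule.sum_mem _ fun k _ => ?_
  by_cases hk : k = (p, q)
  · subst hk
    exact (D (p, q)).2
  suffices h5 : (D k : C.H X) = 0 from h5 ▸ zero_mem _
  refine eq_zero_of_itg A (typ_ind A (fun i j y hy => ?_)
    fun y z hy hz => by rw [mul_add, map_add, hy, hz, add_zero])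
  by_cases h1 : k.1 + i ≠ X.dim ∨ k.2 + j ≠ X.dim
  · exact itg_typ A h1 (A.typ.mul X (D k).2 hy)
  have h2 := h i j (by
    by_contra h3
    exact hk (Prod.ext (by omega) (by omega))) y hy
  rw [← h0, Finset.sum_mul, map_sum, Finset.sum_eq_single k] at h2
  · exact h2
  · intro m _ hm
    refine itg_typ A ?_ (A.typ.mul X (D m).2 hy)
    by_contra h3
    exact hm (Prod.ext (by omega) (by omega))
  · intro h3
    rw [DFinsupp.notMem_support_iff.1 h3, Submodule.coe_zero, zero_mul, map_zero]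

theorem dg_le_typ (k : ℕ) : C.dg X k ≤ ⨆ (p : ℕ) (q : ℕ) (_ : p + q = 2 * k), C.typ X p q := by
  intro x hx
  have h1 : ∀ y : C.H X, ∃ s ∈ ⨆ (p : ℕ) (q : ℕ) (_ : p + q = 2 * k), C.typ X p q,
      ∃ r ∈ ⨆ (j : ℕ) (_ : j ≠ k), C.dg X j, y = s + r := by
    refine typ_ind A (fun i j y hy => ?_) ?_
    · by_cases h2 : i + j = 2 * k
      · exact ⟨y, Submodule.mem_iSup_of_mem i (Submodule.mem_iSup_of_mem j
          (Submodule.mem_iSup_of_mem h2 hy)), 0, zero_mem _, (add_zero y).symm⟩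
      refine ⟨0, zero_mem _, y, ?_, (zero_add y).symm⟩
      rcases Nat.even_or_odd (i + j) with ⟨l, hl⟩ | h3
      · exact Submodule.mem_iSup_of_mem l (Submodule.mem_iSup_of_mem (by omega)
          (A.typ.le X (hl.trans (two_mul l).symm) hy))
      · rw [A.typ.odd X h3, Submodule.mem_bot] at hy
        exact hy ▸ zero_mem _
    · rintro _ _ ⟨s, hs, r, hr, rfl⟩ ⟨s', hs', r', hr', rfl⟩
      exact ⟨_, add_mem hs hs', _, add_mem hr hr', add_add_add_comm _ _ _ _⟩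
  obtain ⟨s, hs, r, hr, h2⟩ := h1 x
  have h5 : (⨆ (p : ℕ) (q : ℕ) (_ : p + q = 2 * k), C.typ X p q) ≤ C.dg X k :=
    iSup_le fun p => iSup_le fun q => iSup_le fun h => A.typ.le X h
  have h3 : s ∈ C.dg X k := h5 hs
  have h4 : r = 0 := (Submodule.disjoint_def.1 ((A.man.dg_int X).submodule_iSupIndep k)) r
    (by rw [eq_sub_of_add_eq' h2.symm]; exact sub_mem hx h3) hr
  rwa [h2, h4, add_zero]

theorem dec_one {x : C.H X} (hx : x ∈ C.dg X 1) :
    ∃ a ∈ C.typ X 2 0, ∃ b ∈ C.typ X 1 1, ∃ c ∈ C.typ X 0 2, x = a + b + c := by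
  have h1 : (⨆ (p : ℕ) (q : ℕ) (_ : p + q = 2 * 1), C.typ X p q) ≤
      C.typ X 2 0 ⊔ C.typ X 1 1 ⊔ C.typ X 0 2 := by
    refine iSup_le fun p => iSup_le fun q => iSup_le fun h => ?_
    obtain ⟨rfl, rfl⟩ | ⟨rfl, rfl⟩ | ⟨rfl, rfl⟩ :
      (p = 2 ∧ q = 0) ∨ (p = 1 ∧ q = 1) ∨ (p = 0 ∧ q = 2) := by omega
    · exact le_sup_of_le_left le_sup_left
    · exact le_sup_of_le_left le_sup_right
    · exact le_sup_right
  obtain ⟨y, hy, c, hc, rfl⟩ := Submodule.mem_sup.1 (h1 (dg_le_typ A 1 hx))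
  obtain ⟨a, ha, b, hb, rfl⟩ := Submodule.mem_sup.1 hy
  exact ⟨a, ha, b, hb, c, hc, rfl⟩

/-! ### push-forward -/

theorem push_adj (μ : Coh.Hom X Y) (a : C.H X) (b : C.H Y) :
    C.itg Y (C.push μ a * b) = C.itg X (a * C.pb μ b) := by
  haveI := (A.pd Y).1
  have h1 : LinearMap.ker (C.prg Y) = ⊥ := LinearMap.ker_eq_bot'.2 fun x hx =>
    eq_zero_of_itg A fun y => LinearMap.congr_fun hx y
  obtain ⟨z, hz⟩ := (LinearMap.injective_iff_surjective_of_finrank_eq_finrank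
    (Subspace.dual_finrank_eq (V := C.H Y)).symm).1 (LinearMap.ker_eq_bot.1 h1)
    ((C.pb μ).toLinearMap.dualMap (C.prg X a))
  have h2 : C.push μ a = z := by
    show (C.prg Y).leftInverse ((C.pb μ).toLinearMap.dualMap (C.prg X a)) = z
    rw [← hz, LinearMap.leftInverse_apply_of_inj h1]
  rw [h2]
  exact LinearMap.congr_fun hz b



theorem push_comp (μ : Coh.Hom Y Z) (ν : Coh.Hom X Y) (a : C.H X) :
    C.push (Mor.comp μ ν) a = C.push μ (C.push ν a) :=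
  eq_of_itg A fun y => by rw [push_adj A, push_adj A, push_adj A, A.man.pb_comp]

theorem push_dg (μ : Coh.Hom X Y) {i j : ℕ} (h : i + Y.dim = j + X.dim) {a : C.H X}
    (ha : a ∈ C.dg X i) : C.push μ a ∈ C.dg Y j := by
  rcases Nat.lt_or_ge Y.dim j with h1 | h1
  · rw [(Submodule.eq_bot_iff _).1 (A.man.dg_gt X (show X.dim < i by omega)) a ha, map_zero]
    exact zero_mem _
  obtain ⟨l, hl⟩ := Nat.exists_eq_add_of_le h1
  refine mem_dg A hl.symm fun k hk y hy => ?_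
  rw [push_adj A]
  exact A.man.itg_dg X (by omega) _ (A.man.dg_mul X ha (A.man.pb_dg μ y hy))

theorem push_typ (μ : Coh.Hom X Y) {p q p' q' : ℕ} (hp : p + Y.dim = p' + X.dim)
    (hq : q + Y.dim = q' + X.dim) {a : C.H X} (ha : a ∈ C.typ X p q) :
    C.push μ a ∈ C.typ Y p' q' := by
  rcases Nat.lt_or_ge Y.dim p' with h1 | h1
  · rw [(Submodule.eq_bot_iff _).1 (A.typ.gt X q (show X.dim < p by omega)) a ha, map_zero]
    exact zero_mem _
  rcases Nat.lt_or_ge Y.dim q' with h2 | h2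
  · rw [(Submodule.eq_bot_iff _).1 (typ_gt' A p (show X.dim < q by omega)) a ha, map_zero]
    exact zero_mem _
  obtain ⟨l, hl⟩ := Nat.exists_eq_add_of_le h1
  obtain ⟨l', hl'⟩ := Nat.exists_eq_add_of_le h2
  refine mem_typ A hl.symm hl'.symm fun i j hij y hy => ?_
  rw [push_adj A]
  exact itg_typ A (by omega) (A.typ.mul X ha (A.typ.pb μ y hy))

theorem push_cj (μ : Coh.Hom X Y) (a : C.H X) : C.push μ (C.cj X a) = C.cj Y (C.push μ a) :=
  eq_of_itg A fun y => by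
    rw [← A.man.cj_cj Y y, ← map_mul, A.man.cj_itg, push_adj A, push_adj A, A.man.cj_pb,
      ← map_mul, A.man.cj_itg]

/-! ### dominant morphisms -/

theorem pb_c1 {μ : Coh.Hom X Y} {α : Y.F →ₐ[ℂ] X.F} (h : μ.p = Plc.ofHom α) {a : BD ℂ Y.F}
    (ha : a ∈ Y.On) : C.pb μ (C.c1 Y a) = C.c1 X (BD.pb α a) :=
  A.man.c1_pb μ a ha _ ⟨1, fun x g hg => by
    have := hg.pb h
    rwa [div_one, h]⟩

theorem pow_dg {a : C.H X} (ha : a ∈ C.dg X 1) (n : ℕ) : a ^ n ∈ C.dg X n := by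
  induction n with
  | zero => exact pow_zero a ▸ A.man.dg_one X
  | succ n ih => exact pow_succ a n ▸ A.man.dg_mul X ih ha

theorem top_eq_zero {z : C.H X} (hz : z ∈ C.dg X X.dim) (h : C.itg X z = 0) : z = 0 :=
  eq_zero_of_dg A (add_zero _) hz fun y hy => by
    obtain ⟨c, rfl⟩ := A.man.dg_zero X y hy
    rw [mul_comm, ← Algebra.smul_def, map_smul, h, smul_zero]

theorem itg_pow (a : BD ℂ X.F) (ha : a ∈ X.On) (n : ℕ) :
    C.itg X (C.c1 X a ^ n) = (bnum (List.replicate n a) : ℤ) := by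
  rw [← A.man.c1_num X _ fun b hb => (List.eq_of_mem_replicate hb).symm ▸ ha, List.map_replicate,
    List.prod_replicate]

theorem top_eq {z : C.H X} (hz : z ∈ C.dg X X.dim) : ∃ c : ℂ, z = c • C.hc X ^ X.dim := by
  have h1 := pow_dg A (A.man.c1_dg X _ oP_mem) X.dim
  by_cases h : C.itg X (C.hc X ^ X.dim) = 0
  · have h2 := A.hl X 0 X.dim (by simp) 1 (A.man.dg_one X) (by rw [mul_one, top_eq_zero A h1 h])
    exact ⟨0, by rw [zero_smul, ← mul_one z, h2, mul_zero]⟩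
  refine ⟨C.itg X z / C.itg X (C.hc X ^ X.dim), sub_eq_zero.1 (top_eq_zero A
    (sub_mem hz (Submodule.smul_mem _ _ h1)) ?_)⟩
  rw [map_sub, map_smul, smul_eq_mul, div_mul_cancel₀ _ h, sub_self]

/-- the degree formula -/
theorem itg_pb {μ : Coh.Hom X Y} {α : Y.F →ₐ[ℂ] X.F} (h : μ.p = Plc.ofHom α) (hd : X.dim = Y.dim)
    (z : C.H Y) : C.itg X (C.pb μ z) = deg α * C.itg Y z := by
  refine dg_ind A (p := fun z => C.itg X (C.pb μ z) = deg α * C.itg Y z) (fun k z hz => ?_)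
    (fun x y hx hy => by rw [map_add, map_add, map_add, hx, hy, mul_add]) z
  by_cases hk : k = Y.dim
  · obtain ⟨c, rfl⟩ := top_eq A (hk ▸ hz)
    rw [map_smul, map_smul, map_smul, map_pow, pb_c1 A h oP_mem, itg_pow A _ (pb_mem_On h oP_mem),
      itg_pow A _ oP_mem, ← List.map_replicate, bnum_pb, smul_eq_mul, smul_eq_mul]
    push_cast
    ring
  · rw [A.man.itg_dg Y hk z hz, A.man.itg_dg X (hd ▸ hk) _ (A.man.pb_dg μ z hz), mul_zero]

omit A in
theorem deg_of_surj {F E : Type} [Field F] [Field E] [Algebra ℂ F] [Algebra ℂ E] {α : F →ₐ[ℂ] E}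
    (h : Function.Surjective α) : deg α = 1 := by
  letI := α.toRingHom.toAlgebra
  exact Algebra.finrank_eq_one_iff_bijective_algebraMap.2 ⟨α.injective, h⟩

omit A in
theorem dim_of_bim {μ : Coh.Hom X Y} (h : Bim μ) : X.dim = Y.dim := by
  obtain ⟨α, -, h2⟩ := h
  exact (deg_pos_iff α).1 (deg_of_surj h2 ▸ one_pos)

theorem itg_bim {μ : Coh.Hom X Y} (h : Bim μ) (z : C.H Y) : C.itg X (C.pb μ z) = C.itg Y z := by
  have hd := dim_of_bim h
  obtain ⟨α, h1, h2⟩ := h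
  rw [itg_pb A h1 hd, deg_of_surj h2, Nat.cast_one, one_mul]

theorem push_pb_bim {μ : Coh.Hom X Y} (h : Bim μ) (z : C.H Y) : C.push μ (C.pb μ z) = z :=
  eq_of_itg A fun y => by rw [push_adj A, ← map_mul, itg_bim A h]

/-! ### the Hodge lattice -/

omit A in
variable (C X) in
/-- the intersection form -/
def Bf : LinearMap.BilinForm ℂ (C.dg X 1) := (C.prg X).domRestrict₁₂ (C.dg X 1) (C.dg X 1)

omit A in
theorem Bf_apply (x y : C.dg X 1) : Bf C X x y = C.itg X ((x : C.H X) * y) := rfl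

/-- integrality on surfaces -/
theorem itg_Lam (_h : X.dim = 2) {a b : C.H X} (ha : a ∈ C.Lam X) (hb : b ∈ C.Lam X) :
    ∃ m : ℤ, C.itg X (a * b) = m := by
  simpa using A.lam.itg X [a, b] (by simp [ha, hb])

/-- unimodularity -/
theorem mem_Lam (h : X.dim = 2) {x : C.H X} (hx : x ∈ C.dg X 1)
    (hi : ∀ y ∈ C.Lam X, ∃ k : ℤ, C.itg X (x * y) = k) : x ∈ C.Lam X := (A.uni X h).2 x hx hi

variable (X) in
/-- the Hodge lattice of a surface -/
def hl (h : X.dim = 2) : HL (C.dg X 1) where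
  B := Bf C X
  symm x y := by rw [Bf_apply, Bf_apply, mul_comm]
  nd x hx := Subtype.ext (eq_zero_of_dg A (j := 1) h.symm x.2 fun y hy => hx ⟨y, hy⟩)
  Λ := (C.Lam X).comap (C.dg X 1).subtype.toAddMonoidHom
  span := by
    refine Submodule.map_injective_of_injective (C.dg X 1).injective_subtype ?_
    rw [Submodule.map_subtype_top, Submodule.map_span]
    refine Eq.trans ?_ (A.uni X h).1
    congr 1
    exact Set.image_preimage_eq_of_subset fun a ha => ⟨⟨a, A.lam.dg X a ha⟩, rfl⟩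
  int x hx y hy := itg_Lam A h hx hy
  dual x hx := mem_Lam A h x.2 fun y hy => hx ⟨y, A.lam.dg X y hy⟩ hy
  O₁ := (C.typ X 2 0).comap (C.dg X 1).subtype
  M := (C.typ X 1 1).comap (C.dg X 1).subtype
  O₂ := (C.typ X 0 2).comap (C.dg X 1).subtype
  dec x := by
    obtain ⟨a, ha, b, hb, c, hc, h1⟩ := dec_one A x.2
    exact ⟨⟨a, A.typ.le X rfl ha⟩, ha, ⟨b, A.typ.le X rfl hb⟩, hb, ⟨c, A.typ.le X rfl hc⟩, hc,
      Subtype.ext h1⟩
  o11 x hx y hy := itg_typ A (by omega) (A.typ.mul X hx hy)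
  o22 x hx y hy := itg_typ A (by omega) (A.typ.mul X hx hy)
  o1M x hx y hy := itg_typ A (by omega) (A.typ.mul X hx hy)
  o2M x hx y hy := itg_typ A (by omega) (A.typ.mul X hx hy)

theorem fin_dg (k : ℕ) : FiniteDimensional ℂ (C.dg X k) :=
  haveI := (A.pd X).1
  inferInstance

theorem finrank_O₁ (h : X.dim = 2) : finrank ℂ (hl A X h).O₁ = finrank ℂ (C.typ X 2 0) :=
  (Submodule.comapSubtypeEquivOfLe (A.typ.le X (p := 2) (q := 0) (k := 1) rfl)).finrank_eq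

/-! ### correspondences -/

omit A in
variable (C) in
/-- integral and type preserving maps -/
structure Pre (f : C.H X →ₗ[ℂ] C.H Y) : Prop where
  int : ∀ a ∈ C.Lam X, f a ∈ C.Lam Y
  typ : ∀ p q, p + q = 2 → ∀ a ∈ C.typ X p q, f a ∈ C.typ Y p q

omit A in
variable (C X) in
/-- `x`, `y` are of type `(p, q)`, `(q, p)` or conversely -/
def Opp (p q : ℕ) (x y : C.H X) : Prop :=
  (x ∈ C.typ X p q ∧ y ∈ C.typ X q p) ∨ (x ∈ C.typ X q p ∧ y ∈ C.typ X p q)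

omit A in
variable (C X Y) in
/-- two integral type preserving maps which multiply the pairing of two-forms by `N` -/
def Rel (N : ℤ) : Prop := N ≠ 0 ∧ ∃ f g : C.H X →ₗ[ℂ] C.H Y, Pre C f ∧ Pre C g ∧
  ∀ x y, Opp C X 2 0 x y → C.itg Y (f x * g y) = N * C.itg X (x * y)

namespace Pre

variable {f : C.H X →ₗ[ℂ] C.H Y} {g : C.H Y →ₗ[ℂ] C.H Z}

omit A in
theorem comp (hf : Pre C f) (hg : Pre C g) : Pre C (g ∘ₗ f) :=
  ⟨fun a ha => hg.int _ (hf.int a ha), fun p q h a ha => hg.typ p q h _ (hf.typ p q h a ha)⟩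

omit A in
theorem neg (hf : Pre C f) : Pre C (-f) :=
  ⟨fun a ha => neg_mem (hf.int a ha), fun p q h a ha => neg_mem (hf.typ p q h a ha)⟩

theorem dg (hf : Pre C f) : ∀ a ∈ C.dg X 1, f a ∈ C.dg Y 1 := fun x hx => by
  obtain ⟨a, ha, b, hb, c, hc, rfl⟩ := dec_one A hx
  rw [map_add, map_add]
  exact add_mem (add_mem (A.typ.le Y rfl (hf.typ 2 0 rfl a ha))
    (A.typ.le Y rfl (hf.typ 1 1 rfl b hb))) (A.typ.le Y rfl (hf.typ 0 2 rfl c hc))

theorem hom (hf : Pre C f) (h : X.dim = 2) (h' : Y.dim = 2) :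
    Hom (hl A X h) (hl A Y h') (f.restrict (hf.dg A)) :=
  ⟨fun x hx => hf.int x hx, fun x hx => hf.typ 2 0 rfl x hx, fun x hx => hf.typ 1 1 rfl x hx,
    fun x hx => hf.typ 0 2 rfl x hx⟩

end Pre

theorem pre_pb (μ : Coh.Hom X Y) : Pre C (C.pb μ).toLinearMap :=
  ⟨A.lam.pb μ, fun _ _ _ => A.typ.pb μ⟩

theorem pre_push (μ : Coh.Hom X Y) (h : X.dim = 2) (h' : Y.dim = 2) : Pre C (C.push μ) :=
  ⟨fun a ha => mem_Lam A h' (push_dg A μ (by omega) (A.lam.dg X a ha)) fun y hy => by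
      rw [push_adj A]
      exact itg_Lam A h ha (A.lam.pb μ y hy),
    fun _ _ _ _ ha => push_typ A μ (by omega) (by omega) ha⟩

namespace Rel

variable {N N' : ℤ}

omit A in
theorem trans (r : Rel C X Y N) (r' : Rel C Y Z N') : Rel C X Z (N' * N) := by
  obtain ⟨h0, f, g, hf, hg, h⟩ := r
  obtain ⟨h0', f', g', hf', hg', h'⟩ := r'
  refine ⟨mul_ne_zero h0' h0, _, _, hf.comp hf', hg.comp hg', fun x y hxy => ?_⟩
  refine (h' (f x) (g y) (hxy.imp (fun h1 => ⟨hf.typ _ _ rfl _ h1.1, hg.typ _ _ rfl _ h1.2⟩)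
    fun h1 => ⟨hf.typ _ _ rfl _ h1.1, hg.typ _ _ rfl _ h1.2⟩)).trans ?_
  rw [h x y hxy, Int.cast_mul, mul_assoc]

theorem cor2 (r : Rel C X Y N) (h : X.dim = 2) (h' : Y.dim = 2) :
    ∃ ψ χ, Cor2 (hl A X h) (hl A Y h') ψ χ N := by
  obtain ⟨h0, f, g, hf, hg, h1⟩ := r
  exact ⟨_, _, hf.hom A h h', hg.hom A h h', h0, fun x hx y hy => h1 x y (Or.inl ⟨hx, hy⟩),
    fun x hx y hy => h1 x y (Or.inr ⟨hx, hy⟩)⟩

theorem pg_le (r : Rel C X Y N) (h : X.dim = 2) (h' : Y.dim = 2) :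
    finrank ℂ (C.typ X 2 0) ≤ finrank ℂ (C.typ Y 2 0) := by
  obtain ⟨ψ, χ, c⟩ := r.cor2 A h h'
  haveI := fin_dg A (X := X) 1
  haveI := fin_dg A (X := Y) 1
  rw [← finrank_O₁ A h, ← finrank_O₁ A h']
  exact c.finrank_O₁_le

theorem finrank_T (r : Rel C X Y N) (h : X.dim = 2) (h' : Y.dim = 2)
    (he : finrank ℂ (C.typ Y 2 0) ≤ finrank ℂ (C.typ X 2 0)) :
    finrank ℂ (hl A X h).T = finrank ℂ (hl A Y h').T := by
  obtain ⟨ψ, χ, c⟩ := r.cor2 A h h'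
  haveI := fin_dg A (X := X) 1
  haveI := fin_dg A (X := Y) 1
  exact c.finrank_T (by rwa [finrank_O₁ A h, finrank_O₁ A h'])

theorem le (r : Rel C X Y N) (h : X.dim = 2) (h' : Y.dim = 2)
    (he : finrank ℂ (C.typ Y 2 0) ≤ finrank ℂ (C.typ X 2 0)) {d d' : ℕ}
    (hd : (hl A X h).Pic1 d) (hd' : (hl A Y h').Pic1 d') : d' ≤ N.natAbs * d := by
  obtain ⟨ψ, χ, c⟩ := r.cor2 A h h'
  haveI := fin_dg A (X := X) 1
  haveI := fin_dg A (X := Y) 1
  exact c.le (by rwa [finrank_O₁ A h, finrank_O₁ A h']) hd hd'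

end Rel

theorem rel_pb {μ : Coh.Hom X Y} {α : Y.F →ₐ[ℂ] X.F} (h : μ.p = Plc.ofHom α)
    (hd : X.dim = Y.dim) : Rel C Y X (deg α) :=
  ⟨Nat.cast_ne_zero.2 ((deg_pos_iff α).2 hd).ne', _, _, pre_pb A μ, pre_pb A μ, fun x y _ => by
    rw [Int.cast_natCast, ← itg_pb A h hd, map_mul (C.pb μ)]
    rfl⟩


theorem rel_push {μ : Coh.Hom X Y} (hμ : Bim μ) (h : X.dim = 2)
    (he : finrank ℂ (C.typ X 2 0) ≤ finrank ℂ (C.typ Y 2 0)) : Rel C X Y 1 := by
  have h' : Y.dim = 2 := (dim_of_bim hμ).symm.trans h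
  haveI := (A.pd X).1
  have h1 : ∀ x ∈ C.typ X 2 0, ∃ x₀, C.pb μ x₀ = x := by
    have h2 : Function.Injective ((C.pb μ).toLinearMap.domRestrict (C.typ Y 2 0)) :=
      fun a b hab => Subtype.ext (by
        rw [← push_pb_bim A hμ a, ← push_pb_bim A hμ b]
        exact congrArg _ hab)
    have h3 : (C.typ Y 2 0).map (C.pb μ).toLinearMap = C.typ X 2 0 :=
      Submodule.eq_of_le_of_finrank_le (Submodule.map_le_iff_le_comap.2 (A.typ.pb μ)) (by
        rwa [← LinearMap.range_domRestrict, LinearMap.finrank_range_of_inj h2])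
    intro x hx
    obtain ⟨y, -, hy⟩ : x ∈ (C.typ Y 2 0).map (C.pb μ).toLinearMap := h3.symm ▸ hx
    exact ⟨y, hy⟩
  refine ⟨one_ne_zero, _, _, pre_push A μ h h', pre_push A μ h h', fun x y hxy => ?_⟩
  rw [Int.cast_one, one_mul]
  rcases hxy with ⟨hx, -⟩ | ⟨-, hy⟩
  · obtain ⟨x, rfl⟩ := h1 x hx
    rw [push_pb_bim A hμ, mul_comm, push_adj A, mul_comm]
  · obtain ⟨y, rfl⟩ := h1 y hy
    rw [push_pb_bim A hμ, push_adj A]

end Crest.Agent.X262.Int23
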