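import Crest.Agent.X262.Int23.K3
import Crest.Agent.X262.Chn.Defs
import Crest.Agent.X262.Hx56.Defs
import Crest.Agent.X262.Form88.Snc

-- ▼ part X262/Int23/Tau
section

/-!
# Row 262, INT (helper23), part 5: `NZStmt`, `MatchStmt`, `TransStmt`

* `BCG C` : base change of the Gysin map along an arbitrary morphism;
* `int1`, `int2` : integrality;
* `nzStmt`, `matchStmt`, `transStmt`.
-/

set_option autoImplicit false
set_option linter.style.haveILetI false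

noncomputable section

namespace Crest.Agent.X262.Int23

open Module Crest.Agent.X262.Coh Crest.Agent.X277 Crest.Agent.X277.Lef Crest.Agent.X277.AN.G1
  Crest.Agent.X277.BD Crest.Agent.X277.BD.Br
open Crest.Agent.X277.BD.Cyc (Rf)
open Crest.Agent.X262.Top (K3 Typ)
open Crest.Agent.X262.Chn

/-- base change of the Gysin map along an arbitrary morphism -/
def BCG (C : Th) : Prop :=
  ∀ {D X B : SV} (j : Coh.Hom D X) (a : BD ℂ X.F) (u : Coh.Hom B X), IsDv j a →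
    (∃ c ∈ C.Lam B, ∃ w : Coh.Hom B D, ∀ x, C.pb u (C.push j x) = c * C.pb w x) ∨
    ∃ (ι : Type) (_ : Fintype ι) (G : ι → SV) (v : ∀ i, Coh.Hom (G i) B)
      (w : ∀ i, Coh.Hom (G i) D) (m : ι → ℕ),
      ∀ x, C.pb u (C.push j x) = ∑ i, m i • C.push (v i) (C.pb (w i) x)

variable {C : Th} (A : C.Ax) {D D' X X' B : SV}

include A

theorem pb_prod_Lam (v : Coh.Hom D B) {l : List (C.H B)} (hl : ∀ y ∈ l, y ∈ C.Lam B) :
    ∀ y ∈ l.map (C.pb v), y ∈ C.Lam D := by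
  simpa using fun y hy => A.lam.pb v y (hl y hy)

omit A in
theorem int_sum {ι : Type} [Fintype ι] (m : ι → ℕ) {f : ι → ℂ} (h : ∀ i, ∃ k : ℤ, f i = k) :
    ∃ k : ℤ, ∑ i, m i • f i = k := by
  choose k hk using h
  exact ⟨∑ i, m i * k i, by simp [hk]⟩

theorem int1 (hB : BCG C) {j : Coh.Hom D X} {a : BD ℂ X.F} (hj : IsDv j a) (u : Coh.Hom B X)
    {x : C.H D} (hx : x ∈ C.Lam D) {l : List (C.H B)} (hl : ∀ y ∈ l, y ∈ C.Lam B) :
    ∃ k : ℤ, C.itg B (C.pb u (C.push j x) * l.prod) = k := by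
  rcases hB j a u hj with ⟨c, hc, w, h⟩ | ⟨ι, _, G, v, w, m, h⟩
  · rw [h, mul_assoc]
    exact A.lam.itg B (c :: C.pb w x :: l)
      (List.forall_mem_cons.2 ⟨hc, List.forall_mem_cons.2 ⟨A.lam.pb w x hx, hl⟩⟩)
  · rw [h, Finset.sum_mul, map_sum]
    simp only [smul_mul_assoc, map_nsmul]
    refine int_sum m fun i => ?_
    rw [push_adj A, map_list_prod]
    exact A.lam.itg _ (C.pb (w i) x :: l.map (C.pb (v i)))
      (List.forall_mem_cons.2 ⟨A.lam.pb _ x hx, pb_prod_Lam A _ hl⟩)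

theorem int2 (hB : BCG C) {j : Coh.Hom D X} {a : BD ℂ X.F} (hj : IsDv j a) (u : Coh.Hom B X)
    {x : C.H D} (hx : x ∈ C.Lam D) {j' : Coh.Hom D' X'} {a' : BD ℂ X'.F} (hj' : IsDv j' a')
    (u' : Coh.Hom B X') {x' : C.H D'} (hx' : x' ∈ C.Lam D') :
    ∃ k : ℤ, C.itg B (C.pb u' (C.push j' x') * C.pb u (C.push j x)) = k := by
  rcases hB j a u hj with ⟨c, hc, w, h⟩ | ⟨ι, _, G, v, w, m, h⟩
  · rw [h]
    simpa using int1 A hB hj' u' hx' (l := [c, C.pb w x]) (by simp [hc, A.lam.pb w x hx])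
  · rw [h, mul_comm, Finset.sum_mul, map_sum]
    simp only [smul_mul_assoc, map_nsmul]
    refine int_sum m fun i => ?_
    rw [push_adj A, ← A.man.pb_comp, mul_comm]
    simpa using int1 A hB hj' (Mor.comp u' (v i)) hx' (l := [C.pb (w i) x])
      (by simp [A.lam.pb _ x hx])

/-! ### blocks -/

section Blk

variable {K : Type} [Field K] [Algebra ℂ K] {b b' : Bw K} {U : PModel ℂ K}

omit A in
variable (C) in
/-- `ρ^* j_* π^*` -/
def tU (h : Ge U b.hi) : C.H b.Z →ₗ[ℂ] C.H (sv U) := (C.pb (mor h)).toLinearMap ∘ₗ b.t C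

omit A in
theorem tU_apply (h : Ge U b.hi) (x : C.H b.Z) :
    tU C h x = C.pb (mor h) (C.push b.j (C.pb b.π x)) := rfl

omit A in
variable (C) in
/-- its adjoint `π_* j^* ρ_*` -/
def tA (h : Ge U b.hi) : C.H (sv U) →ₗ[ℂ] C.H b.Z :=
  C.push b.π ∘ₗ (C.pb b.j).toLinearMap ∘ₗ C.push (mor h)

theorem tA_adj (h : Ge U b.hi) (z : C.H (sv U)) (x : C.H b.Z) :
    C.itg b.Z (tA C h z * x) = C.itg (sv U) (z * tU C h x) := by
  rw [tU_apply, ← push_adj A, mul_comm (C.push _ z), push_adj A, mul_comm (C.pb b.π x),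
    ← push_adj A]
  rfl

theorem tU_typ (h : Ge U b.hi) {p q : ℕ} {x : C.H b.Z} (hx : x ∈ C.typ b.Z p q) :
    tU C h x ∈ C.typ (sv U) (p + 1) (q + 1) :=
  have h1 : (sv b.hi).dim = 4 := b.dimK
  have h2 := b.dimE
  A.typ.pb _ _ (push_typ A b.j (by omega) (by omega) (A.typ.pb _ _ hx))

theorem tA_typ (h : Ge U b.hi) {p q : ℕ} {z : C.H (sv U)} (hz : z ∈ C.typ (sv U) (p + 1) (q + 1)) :
    tA C h z ∈ C.typ b.Z p q :=
  have h1 := b.dimZ
  have h2 := b.dimE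
  push_typ A b.π (by omega) (by omega) (A.typ.pb _ _ (push_typ A (mor h) rfl rfl hz))

theorem tU_cj (h : Ge U b.hi) (x : C.H b.Z) : tU C h (C.cj _ x) = C.cj _ (tU C h x) := by
  rw [tU_apply, tU_apply, A.man.cj_pb, push_cj A, A.man.cj_pb]

theorem tU_itg (h : Ge U b.hi) (hb : b.LH C) (x y : C.H b.Z) :
    C.itg (sv U) (tU C h x * tU C h y) = -C.itg b.Z (x * y) := by
  rw [tU_apply, tU_apply, ← map_mul, itg_bim A (bim_mor h), push_adj A, A.bc2 b.j b.e b.dv,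
    ← hb.fib, ← map_neg, Bw.xi, map_mul (C.pb b.π)]
  congr 1
  ring

theorem tA_tU (h : Ge U b.hi) (hb : b.LH C) (x : C.H b.Z) : tA C h (tU C h x) = -x :=
  eq_of_itg A fun y => by rw [tA_adj A, tU_itg A h hb, neg_mul, map_neg]

omit A in
theorem mem_up (h : Ge U b.hi) {z : C.H (sv U)} :
    z ∈ up C h (b.blk C) ↔ ∃ x ∈ C.typ b.Z 2 0, tU C h x = z := by
  rw [Chn.up, Bw.blk, ← Submodule.map_comp]
  rfl

/-- integral on `Lam` and type preserving -/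
theorem pre_of {S : SV} (hS : S.dim = 2) {f : C.H X →ₗ[ℂ] C.H S}
    (h1 : ∀ p q, p + q = 2 → ∀ a ∈ C.typ X p q, f a ∈ C.typ S p q)
    (h2 : ∀ a ∈ C.Lam X, ∀ y ∈ C.Lam S, ∃ k : ℤ, C.itg S (f a * y) = k) : Pre C f := by
  refine ⟨fun x hx => mem_Lam A hS ?_ (h2 x hx), h1⟩
  obtain ⟨a, ha, b, hb, c, hc, rfl⟩ := dec_one A (A.lam.dg X x hx)
  rw [map_add, map_add]
  exact add_mem (add_mem (A.typ.le S rfl (h1 2 0 rfl a ha)) (A.typ.le S rfl (h1 1 1 rfl b hb)))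
    (A.typ.le S rfl (h1 0 2 rfl c hc))

theorem rel_match (hB : BCG C) (h : Ge U b.hi) (h' : Ge U b'.hi) (hb : b.LH C) (hb' : b'.LH C)
    (he : up C h' (b'.blk C) ≤ up C h (b.blk C)) : Rel C b'.Z b.Z 1 := by
  have h1 : Pre C (tA C h ∘ₗ tU C h') :=
    pre_of A b.dimZ (fun p q _ a ha => tA_typ A h (tU_typ A h' ha)) fun a ha y hy => by
      rw [LinearMap.comp_apply, tA_adj A]
      exact int2 A hB b.dv _ (A.lam.pb _ y hy) b'.dv _ (A.lam.pb _ a ha)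
  have h2 : ∀ x' ∈ C.typ b'.Z 2 0, ∃ x, tU C h x = tU C h' x' := fun x' hx' =>
    ((mem_up h).1 (he ((mem_up h').2 ⟨x', hx', rfl⟩))).imp fun _ h3 => h3.2
  have h3 : ∀ x' ∈ C.typ b'.Z 2 0, ∀ y, C.itg b.Z (tA C h (tU C h' x') * tA C h (tU C h' y)) =
      C.itg b'.Z (x' * y) := fun x' hx' y => by
    obtain ⟨x, hx⟩ := h2 x' hx'
    rw [mul_comm, tA_adj A, ← hx, tA_tU A h hb, map_neg, hx, mul_neg, map_neg, tU_itg A h' hb',
      neg_neg, mul_comm]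
  refine ⟨one_ne_zero, _, _, h1, h1, fun x y hxy => ?_⟩
  rw [Int.cast_one, one_mul]
  rcases hxy with ⟨hx, -⟩ | ⟨-, hy⟩
  · exact h3 x hx y
  · rw [mul_comm, mul_comm x]
    exact h3 y hy x

omit A in
theorem exists_k3 {D : ℕ} (h : Typ D (Rf b.V)) : ∃ (F : Type) (_ : Field F) (_ : Algebra ℂ F)
    (_ : Algebra.EssFiniteType ℂ F) (d : ℕ) (_ : K3 F d), D ≤ d ∧ Nonempty (F ≃ₐ[ℂ] b.Z.F) := by
  obtain ⟨F, _, _, _, d, h1, ⟨S⟩, ⟨e⟩⟩ := h
  obtain ⟨e'⟩ := b.rat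
  exact ⟨F, _, _, _, d, S, h1, Surf.cancStmt F _ d S ⟨e.symm.trans e'⟩⟩

end Blk

theorem nzStmt : NZStmt C := by
  intro K _ _ D b h h0
  obtain ⟨F, _, _, _, d, S, -, ⟨e⟩⟩ := exists_k3 h
  have h1 := (rel_equiv A (X := sv S.P) e (dim_k3 S) b.dimZ).pg_le A (dim_k3 S) b.dimZ
  rw [pg_k3 A S, h0, finrank_bot] at h1
  exact absurd h1 (by decide)

theorem matchStmt (hB : BCG C) (hM : MinStmt) : MatchStmt C := by
  intro K _ _ D b b' U h h' hb hb' he ht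
  obtain ⟨x, hx, h0⟩ := Submodule.exists_mem_ne_zero_of_ne_bot (nzStmt A K D b ht)
  obtain ⟨F, _, _, _, d, S, hd, ⟨e⟩⟩ := exists_k3 ht
  obtain ⟨d', h1, h2⟩ := transfer A hM S b'.dimZ (fun h1 => by
      obtain ⟨x', hx', h2⟩ := (mem_up h').1 (he ▸ (mem_up h).2 ⟨x, hx, rfl⟩)
      rw [h1, Submodule.mem_bot] at hx'
      have h3 := tA_tU A h hb x
      rw [← h2, hx', map_zero, map_zero] at h3
      exact h0 (neg_eq_zero.1 h3.symm))
    ((rel_match A hB h h' hb hb' he.ge).trans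
      (rel_equiv A (Y := sv S.P) e.symm b.dimZ (dim_k3 S)))
  exact ⟨_, _, _, inferInstance, d', hd.trans (by simpa using h2), h1, b'.rat⟩

theorem transStmt (hB : BCG C) (hM : MinStmt) (hI : Hx56.IsoStmt C) : TransStmt C := by
  refine fun D => ⟨36 * D, ?_⟩
  rintro G hG ⟨F, _, _, _, d, L, _, _, hd, ⟨S⟩, hL⟩ K _ _ X hK b U h hX hb h0 he
  obtain ⟨N, Q, u, w, w', φ, n0, n1, hQ, -, p1, p2, hp⟩ :=
    hI G F L K d S X (sv U) (mor hX) hG hL hK (bim_mor hX)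
  have hS := dim_k3 S
  obtain ⟨d0, l, l1, l2, l3, l4⟩ := pic1_k3 A S
  obtain ⟨γ, g1, g2⟩ := HL.exists_dual l1 l2 (l3 ▸ Nat.cast_ne_zero.2 d0) l4
  have h1 : (l * γ : C.H (sv S.P)) ∈ C.dg _ 2 := A.man.dg_mul _ l.2 γ.2
  have h2 : (l * γ : C.H (sv S.P)) ∈ C.typ _ 2 2 := by
    obtain ⟨c, hc⟩ := top_eq A (hS ▸ h1)
    rw [hc, hS, pow_two]
    exact Submodule.smul_mem _ _ (A.typ.mul _ (A.typ.c1 _ _ oP_mem) (A.typ.c1 _ _ oP_mem))
  have h3 : Pre C (Hx56.psi C u w w' (l * γ) ∘ₗ tU C h) :=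
    pre_of A hS (fun p q _ a ha => push_typ A w (by omega) (by omega)
      (A.typ.mul _ (A.typ.pb u _ (tU_typ A h ha)) (A.typ.pb w' _ h2))) fun a ha y hy => by
      rw [LinearMap.comp_apply, Hx56.psi_apply, push_adj A, tU_apply, ← A.man.pb_comp,
        map_mul (C.pb w'), mul_assoc, mul_assoc]
      simpa using int1 A hB b.dv (Mor.comp (mor h) u) (A.lam.pb _ a ha)
        (l := [C.pb w' l, C.pb w' γ, C.pb w y])
        (by simp [A.lam.pb w' l l1, A.lam.pb w' γ g1, A.lam.pb w _ hy])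
  have h4 : ∀ x ∈ C.typ b.Z 2 0, ∃ y ∈ C.typ (sv X.P) 3 1, C.pb (mor hX) y = tU C h x :=
    fun x hx => he ((mem_up h).2 ⟨x, hx, rfl⟩)
  have h5 : ∀ x ∈ C.typ b.Z 0 2, ∃ y ∈ C.typ (sv X.P) 1 3, C.pb (mor hX) y = tU C h x :=
    fun x hx => by
      obtain ⟨y, hy, h5⟩ := h4 _ (A.typ.cj _ x hx)
      exact ⟨_, A.typ.cj _ y hy, by rw [A.man.cj_pb, h5, tU_cj A, A.man.cj_cj]⟩
  have h6 : Rel C b.Z (sv S.P) (-N) := by
    refine ⟨neg_ne_zero.2 n0, _, _, h3, h3.comp ⟨p1, p2⟩, fun x y hxy => ?_⟩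
    obtain ⟨x', y', h6, h7, h8⟩ : ∃ x' y', Opp C (sv X.P) 3 1 x' y' ∧
        C.pb (mor hX) x' = tU C h x ∧ C.pb (mor hX) y' = tU C h y := by
      rcases hxy with ⟨hx, hy⟩ | ⟨hx, hy⟩
      · obtain ⟨x', a1, a2⟩ := h4 x hx
        obtain ⟨y', a3, a4⟩ := h5 y hy
        exact ⟨x', y', Or.inl ⟨a1, a3⟩, a2, a4⟩
      · obtain ⟨x', a1, a2⟩ := h5 x hx
        obtain ⟨y', a3, a4⟩ := h4 y hy
        exact ⟨x', y', Or.inr ⟨a1, a3⟩, a2, a4⟩
    have h9 := hp _ h1 g2 x' y' h6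
    rw [← itg_bim A (bim_mor hX), map_mul (C.pb (mor hX)), h7, h8, tU_itg A h hb] at h9
    rw [Int.cast_neg, neg_mul, ← mul_neg]
    exact h9
  obtain ⟨d', h7, h8⟩ := transfer A hM S b.dimZ h0 h6
  rw [Int.natAbs_neg] at h8
  exact ⟨_, _, _, inferInstance, d', Nat.le_of_mul_le_mul_left
    (hd.trans (h8.trans (Nat.mul_le_mul_right _ n1))) (by decide), h7, b.rat⟩

end Crest.Agent.X262.Int23
end
end

-- ▼ part X262/Int23/Bcg

/-!
# Row 262, INT (helper23), part 6: base change of the Gysin map along an arbitrary morphism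

* `exists_lpb`, `exists_dpb` : pull-back of line bundles and divisors along arbitrary morphisms;
* `bc_gen`, `bcg`, `bc_zero`.
-/

set_option autoImplicit false
set_option linter.style.haveILetI false

noncomputable section

namespace Crest.Agent.X262.Int23

open Module Crest.Agent.X262.Coh Crest.Agent.X277 Crest.Agent.X277.Lef Crest.Agent.X277.AN.G1
  Crest.Agent.X277.BD Crest.Agent.X277.BD.Br

variable {D X B : SV} (u : Coh.Hom B X) {a : BD ℂ X.F}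

theorem exists_lpb_free (ha : a ∈ X.On) (hf : Free a) (q₀ : B.Pt) :
    ∃ a' r, At a (u.map q₀) r ∧ LPbU u a a' r := by
  obtain ⟨n, s, -, h1, h2⟩ := hf.exists_fam
  have h3 : ∀ q : B.Pt, ∃ i, At a (u.map q) (s i) := fun q =>
    (ha (u.map q)).elim fun g hg => hg.exists_fam h1 h2
  obtain ⟨i₀, h0⟩ := h3 q₀
  refine ⟨mxf ℂ fun j => u.p.π (s j / s i₀), s i₀, h0, fun q g hg => ?_⟩
  obtain ⟨i, hi⟩ := h3 q
  have h4 : ∀ j, s j / s i₀ ∈ u.p.O := fun j => u.mem_O (h0.div_mem (h1 j))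
  have h5 : u.p.π (s i / s i₀) ≠ 0 := fun h5 => by
    have h6 := u.p.π_mul (h4 i) (u.mem_O (hi.div_mem (h1 i₀)))
    rw [h5, zero_mul, div_mul_div_cancel₀ h0.ne, div_self hi.ne, Plc.π_one] at h6
    exact one_ne_zero h6
  have h6 := at_mxf (x := q) (s := fun j => u.p.π (s j / s i₀)) h5 fun l => by
    rw [← Plc.π_div (h4 l) h5, div_div_div_cancel_right₀ h0.ne]
    exact u.π_mem (hi.div_mem (h1 l))
  have h7 := hg.ev_div_ne hi
  have h8 := LP.mem_of_ne h7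
  rw [u.ev_map h8] at h7
  have h9 := h6.mul_unit h7
  rwa [← u.p.π_mul (u.mem_O h8) (h4 i), div_mul_div_cancel₀ hi.ne] at h9

theorem exists_lpb (ha : a ∈ X.On) (q₀ : B.Pt) : ∃ a' r, At a (u.map q₀) r ∧ LPbU u a a' r := by
  obtain ⟨b, hb, N, hf, rfl⟩ := exists_sub_On ha
  have hc : N • oP X.P ∈ X.On := nsmul_mem oP_mem N
  obtain ⟨b', s, h1, h2⟩ := exists_lpb_free u hb hf q₀
  obtain ⟨c', t, h3, h4⟩ := exists_lpb_free u hc (free_oP.nsmul N) q₀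
  refine ⟨b' - c', s / t, h1.sub h3, fun q g hg => ?_⟩
  obtain ⟨t', ht⟩ := hc (u.map q)
  have h5 := h2 q _ (by simpa using hg.add ht)
  have h6 := h4 q _ ht
  have h7 := h5.sub h6
  rw [← Plc.π_div (Plc.mem_of_ne h5.ne) h6.ne] at h7
  convert h7 using 2
  have := ht.ne
  have := h1.ne
  have := h3.ne
  field_simp

theorem exists_dpb (ha : a ∈ X.On) {q₀ : B.Pt} (h : At a (u.map q₀) 1) : ∃ a', DPb u a a' := by
  obtain ⟨a', r, h1, h2⟩ := exists_lpb u ha q₀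
  have h3 := h1.ev_div_ne h
  rw [div_one] at h3
  have h4 := LP.mem_of_ne h3
  rw [u.ev_map h4] at h3
  refine ⟨a' + pr ℂ (u.p.π r), fun q g hg => ?_⟩
  have h5 := (h2 q g hg).add (at_pr q (LP.ne_zero_of_ne h3))
  rwa [← u.p.π_mul (Plc.mem_of_ne (h2 q g hg).ne) (u.mem_O h4), div_mul_cancel₀ _ h1.ne,
    ← div_one g] at h5

variable {u}

theorem dpb_nonneg {a' : BD ℂ B.F} (h : DPb u a a') (ha : a ∈ X.On) (h0 : 0 ≤ a) : 0 ≤ a' :=
  le_of_at (P := B.P) fun q => by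
    obtain ⟨g, hg⟩ := ha (u.map q)
    have h1 := h q g hg
    rw [div_one] at h1
    refine ⟨1, _, at_zero q, h1, ?_⟩
    rw [← u.p.π_one, ← Plc.π_div (one_mem _) h1.ne]
    exact u.π_mem ((at_zero _).div_mem_of_le hg h0)

variable {C : Th} (A : C.Ax)

include A

/-- **base change** -/
theorem bc_gen {j : Coh.Hom D X} (hj : IsDv j a) (u : Coh.Hom B X) :
    (∃ w : Coh.Hom B D, (Mor.comp j w).map = u.map ∧
      ∀ x, C.pb u (C.push j x) = C.pb u (C.c1 X a) * C.pb w x) ∨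
    ∃ (ι : Type) (_ : Fintype ι) (G : ι → SV) (v : ∀ i, Coh.Hom (G i) B)
      (w : ∀ i, Coh.Hom (G i) D) (m : ι → ℕ), (∀ i, (G i).dim + 1 = B.dim) ∧
      (∀ i, (Mor.comp j (w i)).map = (Mor.comp u (v i)).map) ∧
      ∀ x, C.pb u (C.push j x) = ∑ i, m i • C.push (v i) (C.pb (w i) x) := by
  classical
  by_cases h : ∀ q, u.map q ∈ Set.range j.map
  · obtain ⟨w, hw⟩ := Form88.exists_lift hj.emb u h
    refine Or.inl ⟨w, hw, fun x => ?_⟩
    rw [← A.man.pb_congr _ _ hw, A.man.pb_comp, A.man.pb_comp, A.bc2 j a hj, map_mul]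
  obtain ⟨q₀, h0⟩ := not_forall.1 h
  obtain ⟨a', h1⟩ := exists_dpb u hj.on (hj.off _ h0)
  obtain ⟨M, π, hπ, ι, _, G, v, e, h2, h3, h4⟩ := Form88.exists_snc B {a'}
  obtain ⟨-, m, h5, h6, h7⟩ := h4 a' (Finset.mem_singleton_self _)
  have h8 := h6 (dpb_nonneg h1 hj.on hj.nonneg)
  have h9 : DPb (X := sv M) (Mor.comp u π) a a' := fun q g hg => by
    have h9 := (h1 _ g (Mor.comp_map u π q ▸ hg)).pb hπ
    rw [pb_id] at h9
    show At a' q (π.p.π _)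
    rwa [hπ]
  have h10 : ∀ i, m i ≠ 0 → ∀ q, (Mor.comp (Mor.comp u π) (v i)).map q ∈ Set.range j.map := by
    intro i hi q
    by_contra hc
    rw [Mor.comp_map] at hc
    have h10 := h9 _ 1 (hj.off _ hc)
    rw [div_one, Plc.π_one] at h10
    exact hi (h7 i q h10)
  choose w hw using fun i : {i // m i ≠ 0} => Form88.exists_lift hj.emb _ (h10 i.1 i.2)
  have h11 : ∑ i : {i // m i ≠ 0}, (m i.1).toNat • e i.1 = a' := by
    rw [h5, ← Finset.sum_filter_of_ne (p := fun i => m i ≠ 0) fun i _ hi h0 =>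
      hi (by rw [h0, zero_smul]), Finset.sum_subtype (p := fun i => m i ≠ 0) _ (by simp)]
    exact Finset.sum_congr rfl fun i _ => by rw [← natCast_zsmul, Int.toNat_of_nonneg (h8 i.1)]
  refine Or.inr ⟨{i // m i ≠ 0}, inferInstance, fun i => G i.1, fun i => Mor.comp π (v i.1), w,
    fun i => (m i.1).toNat, fun i => h3 i.1, fun i => (hw i).trans (funext fun q => ?_), fun x => ?_⟩
  · simp only [Mor.comp_map]
  have h12 := A.bc1 j a (B := sv M) (Mor.comp u π) (fun i : {i // m i ≠ 0} => G i.1)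
    (fun i => v i.1) (fun i => e i.1) (fun i => (m i.1).toNat) w hj (fun i => h2 i.1)
    (h11.symm ▸ h9) hw x
  rw [← push_pb_bim A (Form88.bim_id hπ) (C.pb u _), ← A.man.pb_comp, h12, map_sum]
  exact Finset.sum_congr rfl fun i _ => by rw [map_nsmul, push_comp A]

theorem bcg : BCG C := fun _ a u hj =>
  (bc_gen A hj u).imp (fun ⟨w, _, h⟩ => ⟨_, A.lam.pb u _ (A.lam.c1 _ a hj.on), w, h⟩)
    fun ⟨ι, _, G, v, w, m, _, _, h⟩ => ⟨ι, _, G, v, w, m, h⟩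

/-- the field `bc` of `Chn.Frm` -/
theorem bc_zero (j : Coh.Hom D X) (a : BD ℂ X.F) (u : Coh.Hom B X) (hj : IsDv j a) (x : C.H D)
    (h : ∀ (G : SV) (v : Coh.Hom G B) (w : Coh.Hom G D),
      (Mor.comp j w).map = (Mor.comp u v).map → C.pb w x = 0) : C.pb u (C.push j x) = 0 := by
  rcases bc_gen A hj u with ⟨w, h1, h2⟩ | ⟨ι, _, G, v, w, m, -, h1, h2⟩
  · rw [h2, h B (idH B) w (h1.trans (funext fun q => by rw [Mor.comp_map, Cns.idM_map])), mul_zero]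
  · rw [h2]
    exact Finset.sum_eq_zero fun i _ => by rw [h _ _ _ (h1 i), map_zero, smul_zero]

theorem match_of (hM : MinStmt) : Chn.MatchStmt C := matchStmt A (bcg A) hM

theorem trans_of (hM : MinStmt) (hI : Hx56.IsoStmt C) : Chn.TransStmt C :=
  transStmt A (bcg A) hM hI

end Crest.Agent.X262.Int23
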