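import Crest.Agent.X262.Int23.Hl
import Crest.Agent.X262.Surf.K3n
import Crest.Agent.X262.Sark27.Term
import Crest.Agent.X277.Unf.Main

/-!
# Row 262, INT (helper23), part 4: models of a surface, K3 surfaces, recognition

* `rel_hom`, `rel_equiv` : all models are related;
* `pg_k3`, `pic1_k3`, `T_k3` : the lattice of a K3 surface of Picard number one;
* `rec_k3` : `p_g = 1` and `dim T = 21` characterise these surfaces (from `MinStmt`);
* `transfer`, `unimStmt`, `trkStmt`.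
-/

set_option autoImplicit false
set_option linter.style.haveILetI false

open scoped KaehlerDifferential

noncomputable section

namespace Crest.Agent.X262.Int23

open Module Crest.Agent.X262.Coh Crest.Agent.X277 Crest.Agent.X277.Lef Crest.Agent.X277.AN.G1
  Crest.Agent.X277.BD Crest.Agent.X277.BD.Br
open Crest.Agent.X262.Surf (B2)
open Crest.Agent.X262.Top (K3)

/-- a surface with an effective canonical class has a model with nef canonical class -/
def MinStmt : Prop := ∀ (F : Type) [Field F] [Algebra ℂ F] [Algebra.EssFiniteType ℂ F]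
  (P : PModel ℂ F) (b : B2 F), Eff (kP P b) → ∃ P₀ : PModel ℂ F, Nef (kP P₀ b)

/-! ### lattices -/

namespace HL

variable {H : Type*} [AddCommGroup H] [Module ℂ H] {h : HL H}

variable (h) in
/-- the span of the integral classes of type `(1,1)` -/
def NS : Submodule ℂ H := Submodule.span ℂ {n | n ∈ h.Λ ∧ n ∈ h.M}

theorem finrank_add [FiniteDimensional ℂ H] : finrank ℂ h.NS + finrank ℂ h.T = finrank ℂ H := by
  have hn : h.B.Nondegenerate := ⟨h.nd, fun x hx => h.nd x fun y => by rw [h.symm]; exact hx y⟩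
  have h1 : h.B.orthogonal h.NS = h.T := by
    ext x
    refine ⟨fun hx n h1 h2 => h.symm _ _ ▸ hx n (Submodule.subset_span ⟨h1, h2⟩), fun hx n hn => ?_⟩
    exact Submodule.span_induction (p := fun n _ => h.B n x = 0)
      (fun n hn => h.symm _ _ ▸ hx n hn.1 hn.2) (by simp)
      (fun a b _ _ ha hb => by rw [map_add, LinearMap.add_apply, ha, hb, add_zero])
      (fun c a _ ha => by rw [map_smul, LinearMap.smul_apply, ha, smul_zero]) hn
  have h2 := LinearMap.BilinForm.finrank_add_finrank_orthogonal' (B := h.B) h.NS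
  rwa [hn.ker_eq_bot, inf_bot_eq, finrank_bot, add_zero, h1] at h2

theorem Pic1.finrank_NS {d : ℕ} (hd : h.Pic1 d) : finrank ℂ h.NS = 1 := by
  obtain ⟨h0, L, h1, h2, h3, h4⟩ := hd
  have h5 : h.NS = Submodule.span ℂ {L} := by
    refine le_antisymm (Submodule.span_le.2 fun n hn => ?_)
      (Submodule.span_mono (Set.singleton_subset_iff.2 ⟨h1, h2⟩))
    obtain ⟨c, rfl⟩ := h4 n hn.1 hn.2
    exact zsmul_mem (Submodule.mem_span_singleton_self L) c
  rw [h5, finrank_span_singleton]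
  rintro rfl
  exact Nat.cast_ne_zero.2 h0 (by simpa using h3.symm : (d : ℂ) = 0)

theorem exists_gen [FiniteDimensional ℂ H] {x : H} (h1 : x ∈ h.Λ) (h2 : x ∈ h.M) {e : ℤ}
    (he : 0 < e) (h0 : h.B x x = e) (hr : finrank ℂ h.NS ≤ 1) :
    ∃ L ∈ h.Λ, L ∈ h.M ∧ ∃ k : ℤ, 0 < k ∧ h.B L x = k ∧ h.B L L * e = k ^ 2 ∧
      ∀ n ∈ h.Λ, n ∈ h.M → ∃ c : ℤ, n = c • L := by
  have he' : (e : ℂ) ≠ 0 := Int.cast_ne_zero.2 he.ne'
  have hx : x ≠ 0 := by
    rintro rfl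
    exact he' (by simpa using h0.symm)
  have h3 : Submodule.span ℂ {x} = h.NS := Submodule.eq_of_le_of_finrank_le
    (Submodule.span_mono (Set.singleton_subset_iff.2 ⟨h1, h2⟩)) (by rwa [finrank_span_singleton hx])
  have h4 : ∀ n ∈ h.Λ, n ∈ h.M → n = (h.B n x / e) • x := fun n h5 h6 => by
    obtain ⟨c, rfl⟩ := Submodule.mem_span_singleton.1
      (h3.symm ▸ Submodule.subset_span ⟨h5, h6⟩ : n ∈ Submodule.span ℂ {x})
    rw [map_smul, LinearMap.smul_apply, h0, smul_eq_mul, mul_div_cancel_right₀ _ he']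
  let I : AddSubgroup ℤ :=
    { carrier := {k | ∃ n ∈ h.Λ, n ∈ h.M ∧ h.B n x = k}
      add_mem' := by
        rintro a b ⟨y, hy, hy', h5⟩ ⟨z, hz, hz', h6⟩
        exact ⟨y + z, add_mem hy hz, add_mem hy' hz', by
          rw [map_add, LinearMap.add_apply, h5, h6, Int.cast_add]⟩
      zero_mem' := ⟨0, zero_mem _, zero_mem _, by simp⟩
      neg_mem' := by
        rintro a ⟨y, hy, hy', h5⟩
        exact ⟨-y, neg_mem hy, neg_mem hy', by
          rw [map_neg, LinearMap.neg_apply, h5, Int.cast_neg]⟩ }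
  obtain ⟨k₀, hk⟩ := Int.subgroup_cyclic I
  have h5 : ∀ m ∈ I, |k₀| ∣ m := fun m hm => by
    obtain ⟨c, rfl⟩ := AddSubgroup.mem_closure_singleton.1 (hk ▸ hm)
    exact (abs_dvd _ _).2 (Dvd.intro_left c rfl)
  have h6 : k₀ ∈ I := hk ▸ AddSubgroup.mem_closure_singleton_self k₀
  obtain ⟨L, l1, l2, l3⟩ : |k₀| ∈ I := abs_by_cases (· ∈ I) h6 (neg_mem h6)
  have h7 : 0 < |k₀| := abs_pos.2 fun h8 => he.ne' (by simpa [h8] using h5 e ⟨x, h1, h2, h0⟩)
  refine ⟨L, l1, l2, _, h7, l3, ?_, fun n n1 n2 => ?_⟩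
  · have h8 := congrArg (h.B L) (h4 L l1 l2)
    rw [h8, map_smul, l3, smul_eq_mul]
    field_simp
  · obtain ⟨m, hm⟩ := h.int n n1 x h1
    obtain ⟨c, rfl⟩ := h5 m ⟨n, n1, n2, hm⟩
    refine ⟨c, ?_⟩
    rw [h4 n n1 n2, h4 L l1 l2, hm, l3, ← Int.cast_smul_eq_zsmul ℂ, smul_smul]
    congr 1
    push_cast
    ring

end HL

/-! ### algebraic geometry of surfaces -/

section AG

variable {F : Type} [Field F] [Algebra ℂ F]

/-- the wedge product -/
def wd (b : B2 F) (ω η : Ω[F⁄ℂ]) : F := b.repr ω 0 * b.repr η 1 - b.repr η 0 * b.repr ω 1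

theorem jac_two (b : B2 F) (s t : F) :
    jac b ![s, t] = wd b (KaehlerDifferential.D ℂ F s) (KaehlerDifferential.D ℂ F t) := by
  rw [jac, Basis.det_apply, Matrix.det_fin_two]
  simp [Basis.toMatrix_apply, wd]

variable [Algebra.EssFiniteType ℂ F]

theorem Sec_kP {n : ℕ} (P W : PModel ℂ F) (b : Basis (Fin n) F Ω[F⁄ℂ]) :
    (kP P b).Sec = (kP W b).Sec :=
  le_antisymm
    ((Sark27.car_of_on (kP_mem b)).Sec_le (Sark27.isMod_oP W) fun _ => Sark27.kP_le_val P b)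
    ((Sark27.car_of_on (kP_mem b)).Sec_le (Sark27.isMod_oP P) fun _ => Sark27.kP_le_val W b)

theorem lin_zero {P : PModel ℂ F} (hd : dim ℂ F = 2) {a : BD ℂ F} (ha : a ∈ On P) (he : Eff a)
    (h : bnum [a, oP P] = 0) : Lin a 0 := by
  obtain ⟨g, hg, h0⟩ := he
  have h1 : 0 ≤ a - pr ℂ g := sub_nonneg.2 ((pr_le_iff h0).2 hg)
  refine ⟨g, h0, ?_⟩
  rw [zero_add, ← sub_eq_zero]
  refine Geo.eq_of_od (Sark27.isMod_oP P) (Sark27.car_of_on (sub_mem ha (pr_mem g))) Mod.Car.zero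
    fun V hV => ?_
  have h2 := Geo.od_mul_le h1 (l := [oP P]) (by simpa using free_oP.nef) hV.dvs
  have h3 : 0 < Geo.dg V [oP P] := Geo.dg_pos (d := 1) (Sark27.isMod_oP P) hV hd
  rw [bnum_sub, h, bnum_pr, sub_zero] at h2
  rw [map_zero]
  exact le_antisymm (nonpos_of_mul_nonpos_left h2 h3) (Geo.od_nonneg h1)

end AG

theorem fin_R1 (X : SV) (b : B2 X.F) : FiniteDimensional ℂ X.R1 := by
  classical
  obtain ⟨x₀, -⟩ := exists_ov' X.P (RZ.top ℂ X.F)
  obtain ⟨z, hz⟩ := exists_crd b x₀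
  have h0 : jac b ![z 0, z 1] ≠ 0 := by
    have h1 := (at_kP b hz).ne
    rwa [show z = ![z 0, z 1] from funext fun i => by fin_cases i <;> rfl] at h1
  obtain ⟨c, M, hc, h⟩ := Res.Out.exists_den X.P.y_ne (X.P.frac' 0) {1, z 0, z 1}
  let W : X.F → Ω[X.F⁄ℂ] →ₗ[ℂ] X.F := fun t =>
    { toFun := fun ω => c ^ 2 * wd b ω (KaehlerDifferential.D ℂ X.F t)
      map_add' := fun ω η => by
        simp only [wd, map_add, Finsupp.add_apply]
        ring
      map_smul' := fun r ω => by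
        rw [← algebraMap_smul X.F r ω]
        simp only [wd, map_smul, Finsupp.smul_apply, smul_eq_mul, RingHom.id_apply,
          Algebra.smul_def]
        ring }
  have key : ∀ t ∈ ({1, z 0, z 1} : Finset X.F), ∀ ω ∈ X.R1,
      W t ω ∈ (kP X.P b + 2 • M • oP X.P).Sec := by
    intro t ht ω hω V
    obtain ⟨x, hx⟩ := exists_ov' X.P V
    obtain ⟨i, hi⟩ := exists_pat x
    have hy : X.P.y i ^ M ≠ 0 := pow_ne_zero _ (X.P.y_ne i)
    have hu := A_le hi (h t ht i)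
    have hv := A_le hi (h 1 (by simp) i)
    rw [mul_one] at hv
    have h1 := (Submodule.mem_iInf _).1 hω x
    refine Submodule.span_induction (p := fun ω _ => V.v (W t ω) ≤ _) ?_ (by simp)
      (fun a b _ _ ha hb => by
        rw [map_add]
        exact (V.v.map_add _ _).trans (max_le ha hb))
      (fun r a _ ha => by
        rw [map_smul]
        exact (V.v_smul_le r _).trans ha) h1
    rintro _ ⟨a, ha, s, hs, rfl⟩
    have h2 : W t (a • KaehlerDifferential.D ℂ X.F s) =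
        (a * (c / X.P.y i ^ M) * jac b ![s, c * t / X.P.y i ^ M] -
          a * (c * t / X.P.y i ^ M) * jac b ![s, c / X.P.y i ^ M]) * (X.P.y i ^ M) ^ 2 := by
      have h3 : c * t / X.P.y i ^ M = t * (c / X.P.y i ^ M) := by ring
      rw [jac_two, jac_two, h3, Derivation.leibniz]
      show c ^ 2 * wd b _ _ = _
      simp only [wd, map_smul, map_add, Finsupp.smul_apply, Finsupp.add_apply, smul_eq_mul]
      field_simp
      ring
    have h3 : ∀ u ∈ (lp x).O, ∀ v ∈ (lp x).O, V.v (a * u * jac b ![s, v]) ≤ (kP X.P b).val V :=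
      fun u hu v hv => by
        rw [map_mul]
        refine (mul_le_of_le_one_left' (RZ.le_one_iff.2 (hx _ (mul_mem ha hu)))).trans
          (v_jac_le b hx fun l => ?_)
        fin_cases l
        exacts [hs, hv]
    rw [h2, map_mul, val_add, ← ((at_y hi).nsmul M).nsmul 2 V hx]
    exact mul_le_mul_left ((V.v.map_sub _ _).trans (max_le (h3 _ hv _ hu) (h3 _ hu _ hv))) _
  let S := (kP X.P b + 2 • M • oP X.P).Sec
  refine FiniteDimensional.of_injective (V₂ := S × S)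
    (((W (z 0)).restrict (key _ (by simp))).prod ((W (z 1)).restrict (key _ (by simp))))
    ((injective_iff_map_eq_zero _).2 fun ω hω => Subtype.ext ?_)
  have h1 : wd b ω (KaehlerDifferential.D ℂ X.F (z 0)) = 0 :=
    (mul_eq_zero.1 (congrArg (fun p : S × S => (p.1 : X.F)) hω)).resolve_left (pow_ne_zero _ hc)
  have h2 : wd b ω (KaehlerDifferential.D ℂ X.F (z 1)) = 0 :=
    (mul_eq_zero.1 (congrArg (fun p : S × S => (p.2 : X.F)) hω)).resolve_left (pow_ne_zero _ hc)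
  rw [jac_two] at h0
  simp only [wd] at h0 h1 h2
  refine b.repr.map_eq_zero_iff.1 (Finsupp.ext fun l => mul_right_cancel₀ h0 ?_)
  rw [Finsupp.zero_apply, zero_mul]
  fin_cases l
  · show b.repr ω 0 * _ = 0
    linear_combination b.repr (KaehlerDifferential.D ℂ X.F (z 0)) 0 * h2 -
      b.repr (KaehlerDifferential.D ℂ X.F (z 1)) 0 * h1
  · show b.repr ω 1 * _ = 0
    linear_combination b.repr (KaehlerDifferential.D ℂ X.F (z 0)) 1 * h2 -
      b.repr (KaehlerDifferential.D ℂ X.F (z 1)) 1 * h1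

theorem exists_B2 {X : SV} (h : X.dim = 2) : Nonempty (B2 X.F) :=
  ⟨Module.finBasisOfFinrankEq X.F Ω[X.F⁄ℂ] h⟩

/-! ### models -/

variable {C : Th} (A : C.Ax) {X Y : SV}

include A

theorem pg_eq (X : SV) (b : B2 X.F) : finrank ℂ (C.typ X 2 0) = finrank ℂ (kP X.P b).Sec :=
  A.pg X 1 b

theorem rel_hom (α : X.F →ₐ[ℂ] Y.F) (h : X.dim = 2) (h' : Y.dim = 2) : Rel C X Y (deg α) := by
  classical
  obtain ⟨W, hW⟩ := Unf.exists_on {BD.pb α (oP X.P), oP Y.P}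
  obtain ⟨b⟩ := exists_B2 h'
  have h1 : Rel C X (sv W) (deg α) :=
    rel_pb A (X := sv W) (morOf_p α (hW _ (by simp))) (h'.trans h.symm)
  have h2 : BD.pb (AlgHom.id ℂ Y.F) (oP Y.P) ∈ On W := by
    rw [pb_id]
    exact hW _ (by simp)
  have h3 : Rel C (sv W) Y 1 :=
    rel_push A (X := sv W) (μ := morOf _ h2) ⟨_, rfl, Function.surjective_id⟩ h'
      (by rw [pg_eq A (sv W) b, pg_eq A Y b, Sec_kP W Y.P])
  simpa using h1.trans h3

theorem rel_equiv (e : X.F ≃ₐ[ℂ] Y.F) (h : X.dim = 2) (h' : Y.dim = 2) : Rel C X Y 1 := by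
  have h1 := rel_hom A (e : X.F →ₐ[ℂ] Y.F) h h'
  rwa [deg_of_surj e.surjective] at h1

theorem c1_zero : C.c1 X 0 = 0 := by
  simpa using A.man.c1_add X 0 (zero_mem _) 0 (zero_mem _)

/-- the first Chern class as a homomorphism -/
def c1H (X : SV) : X.On →+ C.H X :=
  AddMonoidHom.mk' (fun a => C.c1 X a) fun a b => A.man.c1_add X a a.2 b b.2

theorem c1_sub_zsmul {a b : BD ℂ X.F} (ha : a ∈ X.On) (hb : b ∈ X.On) (c : ℤ) :
    C.c1 X (a - c • b) = C.c1 X a - c • C.c1 X b :=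
  (map_sub (c1H A X) ⟨a, ha⟩ (c • ⟨b, hb⟩)).trans (by rw [map_zsmul]; rfl)

theorem itg_c1 {a b : BD ℂ X.F} (ha : a ∈ X.On) (hb : b ∈ X.On) :
    C.itg X (C.c1 X a * C.c1 X b) = (bnum [a, b] : ℤ) := by
  simpa using A.man.c1_num X [a, b] (by simp [ha, hb])

/-- numerically trivial divisors are homologically trivial -/
theorem c1_eq_zero (h : X.dim = 2) {a : BD ℂ X.F} (ha : a ∈ X.On) (h1 : bnum [X.h, a] = 0)
    (h2 : bnum [a, a] = 0) : C.c1 X a = 0 := by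
  by_contra h0
  have h3 := A.hr X 1 1 0 h.symm _ (A.typ.c1 X a ha) h0 (by
    rw [zero_add, pow_one]
    exact top_eq_zero A (h ▸ A.man.dg_mul X (A.man.c1_dg X _ oP_mem) (A.man.c1_dg X a ha))
      (by rw [itg_c1 A oP_mem ha, h1, Int.cast_zero]))
  rw [pow_zero, one_mul, A.man.cj_c1 X a ha, itg_c1 A ha ha, h2] at h3
  simp at h3


/-! ### K3 surfaces -/

section K3

variable {F : Type} [Field F] [Algebra ℂ F] [Algebra.EssFiniteType ℂ F] {d : ℕ} (S : K3 F d)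

omit A in
theorem dim_k3 : (sv S.P).dim = 2 := Surf.K3n.dim_two S

omit A in
theorem sec_k3 : finrank ℂ (kP S.P S.b).Sec = 1 := by
  rw [S.can.finrank]
  exact le_antisymm (Int.ofNat_le.1 Surf.h0_zero_le) (eff_iff_finrank.1 Eff.zero)

theorem pg_k3 : finrank ℂ (C.typ (sv S.P) 2 0) = 1 := (pg_eq A (sv S.P) S.b).trans (sec_k3 S)

theorem pic1_k3 : (hl A (sv S.P) (dim_k3 S)).Pic1 d := by
  refine ⟨(Surf.K3n.d_pos S).ne', ⟨C.c1 (sv S.P) S.L, A.man.c1_dg _ _ S.L_on⟩, A.lam.c1 _ _ S.L_on,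
    A.typ.c1 _ _ S.L_on, ?_, fun n h1 h2 => ?_⟩
  · refine (itg_c1 A (X := sv S.P) S.L_on S.L_on).trans ?_
    rw [S.L_sq, Int.cast_natCast]
  · obtain ⟨a, ha, h3⟩ := A.l11 _ (dim_k3 S) n h1 h2
    obtain ⟨c, hc⟩ := S.gen a ha
    have h4 := sub_mem ha (zsmul_mem S.L_on c)
    have h5 := c1_eq_zero A (dim_k3 S) h4 ((bnum_swap _ _ _).trans (hc _ oP_mem)) (hc _ h4)
    rw [c1_sub_zsmul A (X := sv S.P) ha S.L_on, sub_eq_zero] at h5
    exact ⟨c, Subtype.ext (h3.trans h5)⟩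

theorem T_k3 : finrank ℂ (hl A (sv S.P) (dim_k3 S)).T = 21 := by
  haveI := fin_dg A (X := sv S.P) 1
  have h1 := HL.finrank_add (h := hl A (sv S.P) (dim_k3 S))
  have h2 := A.noe (sv S.P) S.b
  have h3 : (sv S.P).R1 = ⊥ :=
    (Submodule.eq_bot_iff _).2 fun ω hω => S.irr ω ((Submodule.mem_iInf _).1 hω)
  rw [(pic1_k3 A S).finrank_NS] at h1
  rw [h3, finrank_bot, Surf.K3n.k_num S, sec_k3 S] at h2
  omega

end K3

/-- **recognition** -/
theorem rec_k3 (hM : MinStmt) (h : X.dim = 2) (h1 : finrank ℂ (C.typ X 2 0) = 1)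
    (h2 : finrank ℂ (hl A X h).T = 21) : ∃ d, Nonempty (K3 X.F d) := by
  obtain ⟨b⟩ := exists_B2 h
  have h3 : finrank ℂ (kP X.P b).Sec = 1 := (pg_eq A X b).symm.trans h1
  obtain ⟨P, hP⟩ := hM X.F X.P b (eff_iff_finrank.2 (h3 ▸ one_pos))
  rw [Sec_kP X.P P] at h3
  have h' : (sv P).dim = 2 := h
  rw [(rel_equiv A (X := X) (Y := sv P) AlgEquiv.refl h h').finrank_T A h h'
    (by rw [pg_eq A (sv P) b, h1]; exact h3.le)] at h2
  haveI := fin_dg A (X := sv P) 1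
  haveI := fin_R1 (sv P) b
  have h4 := HL.finrank_add (h := hl A (sv P) h')
  have h5 := A.noe (sv P) b
  have h6 : 0 ≤ bnum [kP P b, kP P b] := bnum_nonneg (by simpa using hP)
  let x : C.dg (sv P) 1 := ⟨C.c1 (sv P) (oP P), A.man.c1_dg _ _ oP_mem⟩
  have x1 : x ∈ (hl A (sv P) h').Λ := A.lam.c1 _ _ oP_mem
  have x2 : x ∈ (hl A (sv P) h').M := A.typ.c1 _ _ oP_mem
  have x3 : (hl A (sv P) h').B x x = (bnum [oP P, oP P] : ℤ) := itg_c1 A (X := sv P) oP_mem oP_mem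
  have x4 := Surf.oP_sq_pos P b
  have h7 : 1 ≤ finrank ℂ (hl A (sv P) h').NS := Submodule.one_le_finrank_iff.2 fun h7 => by
    have h8 : x = 0 := (Submodule.eq_bot_iff _).1 h7 x (Submodule.subset_span ⟨x1, x2⟩)
    rw [h8, map_zero] at x3
    exact x4.ne (by exact_mod_cast x3)
  change _ + bnum [kP P b, kP P b] + _ = 10 + 12 * (finrank ℂ (kP P b).Sec : ℤ) at h5
  obtain ⟨L, l1, l2, k, hk, l3, l4, l5⟩ := HL.exists_gen x1 x2 x4 x3 (by omega)
  obtain ⟨a, ha, l6⟩ := A.l11 _ h' L l1 l2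
  have l7 : ∀ a' ∈ On P, ∃ c : ℤ, ∀ y ∈ On P, bnum [a', y] = c * bnum [a, y] := fun a' ha' => by
    obtain ⟨c, hc⟩ := l5 ⟨C.c1 (sv P) a', A.man.c1_dg _ _ ha'⟩ (A.lam.c1 _ _ ha') (A.typ.c1 _ _ ha')
    have h8 : C.c1 (sv P) a' = c • C.c1 (sv P) a := l6 ▸ congrArg Subtype.val hc
    refine ⟨c, fun y hy => ?_⟩
    have h9 := itg_c1 A (X := sv P) ha' hy
    rw [h8, smul_mul_assoc, map_zsmul, itg_c1 A (X := sv P) ha hy, zsmul_eq_mul] at h9
    exact_mod_cast h9.symm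
  have l8 : bnum [a, oP P] = k := by
    have h8 := itg_c1 A (X := sv P) ha oP_mem
    rw [← l6] at h8
    exact_mod_cast h8.symm.trans l3
  have l9 : 0 < bnum [a, a] := by
    have h8 := itg_c1 A (X := sv P) ha ha
    rw [← l6] at h8
    have h9 : bnum [a, a] * bnum [oP P, oP P] = k ^ 2 := by exact_mod_cast h8 ▸ l4
    exact (mul_pos_iff_of_pos_right x4).1 (h9 ▸ pow_pos hk 2)
  refine ⟨(bnum [a, a]).toNat, ⟨⟨P, b, ?_, fun ω hω => ?_, a, ha, (Int.toNat_of_nonneg l9.le).symm,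
    l8 ▸ hk, fun a' ha' => (l7 a' ha').imp fun c hc y hy => ?_⟩⟩⟩
  · obtain ⟨c, hc⟩ := l7 _ (kP_mem b)
    have h8 := hc _ (kP_mem b)
    rw [bnum_swap a, hc a ha, show bnum [kP P b, kP P b] = 0 by omega] at h8
    have h9 : c = 0 := by simpa [l9.ne'] using h8
    exact lin_zero h (kP_mem b) (eff_iff_finrank.2 (h3 ▸ one_pos))
      (by rw [hc _ oP_mem, h9, zero_mul])
  · have h8 : (sv P).R1 = ⊥ := Submodule.finrank_eq_zero.1 (by omega)
    exact (Submodule.eq_bot_iff _).1 h8 ω ((Submodule.mem_iInf _).2 hω)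
  · rw [bnum_sub, bnum_zsmul, hc y hy, sub_self]

/-- **transfer** -/
theorem transfer (hM : MinStmt) {F : Type} [Field F] [Algebra ℂ F] [Algebra.EssFiniteType ℂ F]
    {d : ℕ} (S : K3 F d) (h : X.dim = 2) (h0 : C.typ X 2 0 ≠ ⊥) {N : ℤ}
    (r : Rel C X (sv S.P) N) : ∃ d', Nonempty (K3 X.F d') ∧ d ≤ N.natAbs * d' := by
  haveI := (A.pd X).1
  have h1 : finrank ℂ (C.typ X 2 0) = 1 :=
    le_antisymm (pg_k3 A S ▸ r.pg_le A h (dim_k3 S)) (Submodule.one_le_finrank_iff.2 h0)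
  obtain ⟨d', ⟨S'⟩⟩ := rec_k3 A hM h h1
    ((r.finrank_T A h (dim_k3 S) (by rw [pg_k3 A S, h1])).trans (T_k3 A S))
  have r' := (rel_equiv A (X := sv S'.P) (Y := X) AlgEquiv.refl (dim_k3 S') h).trans r
  rw [mul_one] at r'
  exact ⟨d', ⟨S'⟩, r'.le A (dim_k3 S') (dim_k3 S) (by rw [pg_k3 A S, pg_k3 A S'])
    (pic1_k3 A S') (pic1_k3 A S)⟩

theorem trkStmt (hM : MinStmt) : Surf.TrkStmt := by
  intro E F _ _ _ _ _ _ α d S B b hb
  obtain ⟨d', h, -⟩ := transfer A hM S (X := sv B) (Hor83.dim_two b) (fun h => by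
      have h1 := pg_eq A (sv B) b
      rw [h, finrank_bot] at h1
      exact (eff_iff_finrank.1 hb).ne h1)
    (rel_hom A (X := sv B) (Y := sv S.P) α (Hor83.dim_two b) (dim_k3 S))
  exact ⟨d', h⟩

theorem unimStmt : Surf.UnimStmt := by
  intro E _ _ _ B b Θ m hb hΘ hm
  have h : (sv B).dim = 2 := Hor83.dim_two b
  haveI := (A.pd (sv B)).1
  have h1 : C.typ (sv B) 2 0 = ⊥ := Submodule.finrank_eq_zero.1 (by
    rw [pg_eq A (sv B) b]
    exact Nat.eq_zero_of_not_pos fun h1 => hb (eff_iff_finrank.2 h1))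
  have h2 : ∀ x ∈ C.Lam (sv B), ∃ a ∈ On B, x = C.c1 (sv B) a := fun x hx => by
    obtain ⟨a, ha, e, he, c, hc, h2⟩ := dec_one A (A.lam.dg _ x hx)
    have h3 := A.typ.cj _ c hc
    rw [h1, Submodule.mem_bot] at ha h3
    rw [ha, zero_add, ← A.man.cj_cj _ c, h3, map_zero, add_zero] at h2
    exact A.l11 _ h x hx (h2 ▸ he)
  suffices h3 : ∃ θ ∈ On B, ∀ y ∈ On B, bnum [Θ - m • θ, y] = 0 by
    obtain ⟨θ, h3, h4⟩ := h3
    exact ⟨θ, h3, Surf.numZ_of_pair h (eq_case0 (Λ := []) (by simp) free_oP.nef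
      (Surf.oP_sq_pos B b) (h4 _ oP_mem) (h4 _ (sub_mem hΘ (nsmul_mem h3 m))))⟩
  rcases Nat.eq_zero_or_pos m with rfl | h0
  · exact ⟨0, zero_mem _, fun y hy => by simpa using hm y hy⟩
  have h0' : (m : ℂ) ≠ 0 := Nat.cast_ne_zero.2 h0.ne'
  obtain ⟨θ, h3, h4⟩ := h2 ((m : ℂ)⁻¹ • C.c1 (sv B) Θ)
    (mem_Lam A h (Submodule.smul_mem _ _ (A.man.c1_dg _ _ hΘ)) fun y hy => by
      obtain ⟨a, ha, rfl⟩ := h2 y hy
      obtain ⟨k, hk⟩ := hm a ha
      refine ⟨k, ?_⟩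
      rw [smul_mul_assoc, map_smul, itg_c1 A (X := sv B) hΘ ha, hk, smul_eq_mul]
      push_cast
      field_simp)
  refine ⟨θ, h3, fun y hy => ?_⟩
  have h5 := itg_c1 A (X := sv B) h3 hy
  rw [← h4, smul_mul_assoc, map_smul, itg_c1 A (X := sv B) hΘ hy, smul_eq_mul,
    inv_mul_eq_iff_eq_mul₀ h0'] at h5
  rw [bnum_sub, bnum_nsmul, sub_eq_zero]
  exact_mod_cast h5

end Crest.Agent.X262.Int23
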